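import Crest.Agent.ORAM.Imp
import Crest.Agent.R317.Lib

/-! Round machines: a polynomial-time controller interacting with random bits and two set oracles. -/

set_option autoImplicit false

namespace Crest.Agent.ORAM

open Crest.Agent.PT Crest.Agent.R317

/-- A round machine on states `σ`.  `act s` is the request of state `s`: `0` halt with output
`out s`, `1` a fair random bit, `2`/`3` the value of oracle `false`/`true` at the set `qry s`,
anything else: no request (answer `0`). -/
structure Rnd (σ : Type) [Enc σ] where
  init : ℕ × List Bin → σ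
  act : σ → ℕ
  qry : σ → List Bool
  upd : σ × Bin → σ
  out : σ → List Bin
  pt_init : PT init
  pt_act : PT act
  pt_qry : PT qry
  pt_upd : PT upd
  pt_out : PT out

/-- The subset of `Fin n` described by a list of bits. -/
def setOf (n : ℕ) (q : List Bool) : Finset (Fin n) :=
  Finset.univ.filter fun j : Fin n => q.getD j.val false = true

namespace Rnd

variable {σ : Type} [Enc σ] (A : Rnd σ) (E : Env)

/-- The answer to the request of state `s` when `d` random words have been drawn. -/
def ans (s : σ) (d : ℕ) : ℕ :=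
  if A.act s = 1 then E.ρ d % 2
  else if A.act s = 2 then E.O false (setOf E.n (A.qry s)) % 2 ^ E.w
  else if A.act s = 3 then E.O true (setOf E.n (A.qry s)) % 2 ^ E.w
  else 0

/-- One round (state, number of random words drawn). -/
def step (p : σ × ℕ) : σ × ℕ :=
  if A.act p.1 = 0 then p
  else (A.upd (p.1, ⟨A.ans E p.1 p.2⟩), if A.act p.1 = 1 then p.2 + 1 else p.2)

/-- The state after `i` rounds on the input words `x`. -/
def st (x : List ℕ) (i : ℕ) : σ × ℕ :=
  (A.step E)^[i] (A.init (E.w, x.map fun v => ⟨v % 2 ^ E.w⟩), 0)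

/-- Time (and space) charged to round `i`. -/
def cost (c : ℕ) (x : List ℕ) (i : ℕ) : ℕ := (sz (A.st E x i).1 + E.w + x.length + 2) ^ c

theorem st_zero (x : List ℕ) :
    A.st E x 0 = (A.init (E.w, x.map fun v => ⟨v % 2 ^ E.w⟩), 0) := rfl

theorem st_succ (x : List ℕ) (i : ℕ) : A.st E x (i + 1) = A.step E (A.st E x i) :=
  Function.iterate_succ_apply' _ _ _

theorem st_stable {x : List ℕ} {i j : ℕ} (h : A.act (A.st E x i).1 = 0) (hij : i ≤ j) :
    A.st E x j = A.st E x i := by
  induction j, hij using Nat.le_induction with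
  | base => rfl
  | succ j _ ih => rw [st_succ, ih, step, if_pos h]

theorem drawn_le (x : List ℕ) (i : ℕ) : (A.st E x i).2 ≤ i := by
  induction i with
  | zero => exact le_rfl
  | succ i ih =>
    rw [st_succ, step]
    split_ifs
    · omega
    · simp only; omega
    · simp only; omega

/-- The first `i` rounds only depend on the parities of the first `i` random words. -/
theorem st_congr {n : ℕ} {O : Bool → Finset (Fin n) → ℕ} {w : ℕ} {ρ ρ' : ℕ → ℕ} (x : List ℕ)
    (i : ℕ) (h : ∀ j < i, ρ j % 2 = ρ' j % 2) :
    A.st ⟨n, O, w, ρ⟩ x i = A.st ⟨n, O, w, ρ'⟩ x i := by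
  induction i with
  | zero => rfl
  | succ i ih =>
    have h1 := ih fun j hj => h j (by omega)
    have h2 := A.drawn_le ⟨n, O, w, ρ'⟩ x i
    rw [st_succ, st_succ, h1]
    simp only [step, ans, h _ (Nat.lt_succ_of_le h2)]

end Rnd

/-- The trivial environment (no oracle) for plain word-RAM runs. -/
def plainEnv (w : ℕ) (ρ : ℕ → ℕ) : Env := ⟨0, fun _ _ => 0, w, ρ⟩

end Crest.Agent.ORAM
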