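import Crest.Agent.ORAM.Stack
import Crest.Agent.R317.Lib

/-! Input, output and query routines on the stack simulation. -/

set_option autoImplicit false

namespace Crest.Agent.ORAM

open Crest.Agent.PT Crest.Agent.R317 Crest.WordRAM

variable {K : Type} {C : Cx K} {E : Env}

/-- Frame on registers and counters only. -/
structure FrR (ms : List ℕ) (σ σ' : St) : Prop where
  R : ∀ r < 20, r ∉ ms → σ'.R r = σ.R r
  d : σ'.d = σ.d
  q : σ'.q = σ.q

theorem Fr.toR {ms : List ℕ} {σ σ' : St} (h : Fr C ms σ σ') : FrR ms σ σ' := ⟨h.R, h.d, h.q⟩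

theorem FrR.refl (ms : List ℕ) (σ : St) : FrR ms σ σ := ⟨fun _ _ _ => rfl, rfl, rfl⟩

theorem FrR.trans {ms ms' ms'' : List ℕ} {σ σ' σ'' : St} (h : FrR ms σ σ') (h' : FrR ms' σ' σ'')
    (h1 : ms ⊆ ms'' := by simp) (h2 : ms' ⊆ ms'' := by simp) : FrR ms'' σ σ'' :=
  ⟨fun r hr hm => (h'.R r hr fun h => hm (h2 h)).trans (h.R r hr fun h => hm (h1 h)),
    h'.d.trans h.d, h'.q.trans h.q⟩

theorem FrR.set (σ : St) (r v : ℕ) : FrR [r] σ (σ.set r v) :=
  ⟨fun j _ hj => by simp at hj; simp [hj], rfl, rfl⟩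

theorem dbl_append (x y : List Bool) : dbl (x ++ y) = dbl x ++ dbl y := by
  simp [dbl, List.flatMap_append]

/-- A word as a raw string, most significant bit first. -/
def wd (v : ℕ) : Raw := ⟨v.bits.reverse⟩

theorem sz_wd (v : ℕ) : sz (wd v) = v.size := by simp [wd, Nat.size_eq_bits_len]

theorem upd_len {S : K → List Bool} {k : K} {l : List Bool} {N : ℕ} (hS : ∀ j, (S j).length ≤ N)
    (hl : l.length ≤ N) (j : K) : (upd S k l j).length ≤ N := by
  by_cases h : j = k
  · subst h; simpa using hl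
  · rw [upd_ne _ _ h]; exact hS j

/-! ### Pushing a word -/

/-- Loop body of `pushW`. -/
def pushWB (j : ℕ) : Stm :=
  .seq (.at (.rem 13 12 4)) (.seq (pushR j 13) (.seq (pushR j 3) (.at (.quot 12 12 4))))

/-- Push the pair code of the word in register `12` onto stack `j`. -/
def pushW (j : ℕ) : Stm := .seq (pushR j 2) (.wne 12 2 (pushWB j))

theorem tr_pushW_loop (hw : 2 * C.H = 2 ^ E.w) (k : K) (v : ℕ) :
    ∀ {σ : St} {S : K → List Bool}, Rep C σ S → σ.R 12 = v → Room C ((S k).length + 2 * v.size) →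
    Tr E (.wne 12 2 (pushWB (C.e k))) σ
      (fun σ' => Rep C σ' (upd S k (dbl v.bits.reverse ++ S k)) ∧ Fr C [12, 13] σ σ')
      (8 * v.size + 1) := by
  induction v using Nat.binaryRec' with
  | zero =>
    intro σ S h h12 _
    exact (Tr.wT (by rw [h12, h.r2]) ⟨by simpa using h, Fr.refl _ _⟩).mono (by omega)
  | bit b v hv ih =>
    intro σ S h h12 hL
    have hne : Nat.bit b v ≠ 0 := by
      rw [Nat.bit_val]; by_cases h0 : v = 0
      · simp [hv h0]
      · omega
    have hs : (Nat.bit b v).size = v.size + 1 := Nat.size_bit hne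
    rw [hs] at hL ⊢
    have e13 : σ.R 12 % σ.R 4 = b.toNat := by
      rw [h12, h.r4, Nat.bit_val]; cases b <;> simp <;> omega
    have body : Tr E (pushWB (C.e k)) σ (fun σ' => Rep C σ' (upd S k (true :: b :: S k)) ∧
        σ'.R 12 = v ∧ Fr C [12, 13] σ σ') 6 := by
      refine Tr.seqAt (b := 5) (Tr.bind (b := 3) (tr_push hw (h.set 13 _) k (x := b)
        (by simp [e13]) (hL.mono (by omega))) fun σ1 h1 => Tr.bind (b := 1) (tr_push hw h1.1 k
          (x := true) h1.1.r3 (hL.mono (by simp; omega))) fun σ2 h2 => Tr.atom ?_)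
      refine ⟨by simpa [At.ex] using h2.1.set 12 _, ?_,
        (((Fr.set σ 13 _).trans (ms'' := [13]) h1.2).trans (ms'' := [13]) h2.2).trans (Fr.set _ 12 _)⟩
      simp only [At.ex, St.set_R, if_true, h2.1.r4]
      rw [h2.2.R 12 (by omega) (by simp), h1.2.R 12 (by omega) (by simp)]
      simp only [At.ex, St.set_R, show ((12 : ℕ) = 13) = False by simp, if_false, h12, Nat.bit_val]
      cases b <;> simp <;> omega
    refine (Tr.wF (by rw [h12, h.r2]; exact hne) body fun σ' h' =>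
      (ih h'.1 h'.2.1 (hL.mono (by simp; omega))).imp fun σ'' h'' => ⟨?_, h'.2.2.trans h''.2⟩).mono
      (by omega)
    have := h''.1
    rw [upd_upd, upd_same] at this
    rw [Nat.bits_append_bit v b hv, List.reverse_cons, dbl_append]
    simpa using this

theorem tr_pushW (hw : 2 * C.H = 2 ^ E.w) (k : K) {v : ℕ} {σ : St} {S : K → List Bool}
    (h : Rep C σ S) (h12 : σ.R 12 = v) (hL : Room C ((S k).length + 2 * v.size + 1)) :
    Tr E (pushW (C.e k)) σ
      (fun σ' => Rep C σ' (upd S k (dbl (wd v).val ++ false :: S k)) ∧ Fr C [12, 13] σ σ')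
      (8 * v.size + 3) := by
  refine (Tr.bind (tr_push hw h k (x := false) h.r2 (hL.mono (by omega))) fun σ1 h1 =>
    (tr_pushW_loop hw k v h1.1 (by rw [h1.2.R 12 (by omega) (by simp), h12])
      (hL.mono (by simp; omega))).imp fun σ2 h2 => ⟨?_, h1.2.trans h2.2⟩).mono (by omega)
  simpa [wd] using h2.1

/-! ### Reading a query -/

/-- Store the bit or word in register `r` at the pointer in register `14` and advance it. -/
def putC (r : ℕ) : Stm := .seq (.at (.store r 14)) (.at (.add 14 14 3))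

theorem tr_put (hw : 2 * C.H = 2 ^ E.w) {σ : St} {S : K → List Bool} (h : Rep C σ S) {N : ℕ}
    (hN : Room C N) (hS : ∀ k, (S k).length ≤ N) (r : ℕ) {m : ℕ} (h14 : σ.R 14 = C.H + m)
    (hm : m + 1 < C.H) :
    Tr E (putC r) σ (fun σ' => Rep C σ' S ∧ σ'.R 14 = C.H + (m + 1) ∧ FrR [14] σ σ' ∧
      σ'.M = writeMem σ.M (C.H + m) (σ.R r)) 2 := by
  refine Tr.seqAt (Tr.atom ⟨Rep.set (h.mem (σ' := At.ex E (.store r 14) σ) hN hS rfl
    fun a ha => ?_) 14 _, ?_, ?_, ?_⟩)
  · simp only [At.ex, h14]; rw [writeMem, if_neg (by omega)]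
  · simp only [At.ex, St.set_R, if_true, h14, h.r3]
    rw [Nat.mod_eq_of_lt (by omega)]; omega
  · exact ⟨fun j _ hj => by simp at hj; simp [At.ex, hj], rfl, rfl⟩
  · simp [At.ex, h14]

/-- Loop body of `readQ`. -/
def readQB (j : ℕ) : Stm := .seq (popC j) (.seq (putC 8) (popC j))

/-- Move the first component of a pair code from stack `j` to the scratch area. -/
def readQ (j : ℕ) : Stm := .seq (.at (.copy 14 7)) (.seq (popC j) (.wne 8 2 (readQB j)))

theorem tr_readQ_loop (hw : 2 * C.H = 2 ^ E.w) (k : K) {N : ℕ} (hN : Room C N)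
    (rest : List Bool) : ∀ (q p : List Bool) {σ : St} {S : K → List Bool}, Rep C σ S →
    (∀ j, (S j).length ≤ N) → S k = (dbl q ++ false :: rest).tail →
    σ.R 8 = pcode (dbl q ++ false :: rest).head? → σ.R 14 = C.H + p.length →
    (∀ i, σ.M (C.H + i) = (p.getD i false).toNat) → p.length + q.length < C.H →
    Tr E (.wne 8 2 (readQB (C.e k))) σ (fun σ' => Rep C σ' (upd S k rest) ∧
      σ'.R 14 = C.H + (p ++ q).length ∧ (∀ i, σ'.M (C.H + i) = ((p ++ q).getD i false).toNat) ∧
      FrR [8, 9, 14] σ σ') (14 * q.length + 1)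
  | [], p, σ, S, h, _, hk, h8, h14, hM, _ => by
    refine Tr.wT (by rw [h8, h.r2]; rfl) ⟨?_, by simpa using h14, by simpa using hM, FrR.refl _ _⟩
    have : rest = S k := by simpa using hk.symm
    rw [this, upd_self]; exact h
  | b :: q, p, σ, S, h, hS, hk, h8, h14, hM, hlen => by
    simp only [dbl_cons, List.cons_append, List.tail_cons, List.head?_cons] at hk h8
    simp only [List.length_cons] at hlen
    have hS1 : ∀ l : List Bool, l.length ≤ (S k).length → ∀ j, (upd S k l j).length ≤ N :=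
      fun l hl => upd_len hS (hl.trans (hS k))
    have body : Tr E (readQB (C.e k)) σ (fun σ' =>
        Rep C σ' (upd S k (dbl q ++ false :: rest).tail) ∧
        σ'.R 8 = pcode (dbl q ++ false :: rest).head? ∧ σ'.R 14 = C.H + (p ++ [b]).length ∧
        (∀ i, σ'.M (C.H + i) = ((p ++ [b]).getD i false).toNat) ∧ FrR [8, 9, 14] σ σ') 12 := by
      refine Tr.bind (b := 7) (tr_pop h k) fun σ1 h1 => Tr.bind (b := 5) (tr_put hw h1.1 hN
        (hS1 _ (by simp)) 8 (m := p.length) (by rw [h1.2.2.R 14 (by omega) (by simp), h14])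
        (by omega)) fun σ2 h2 => (tr_pop h2.1 k).imp fun σ3 h3 => ⟨?_, ?_, ?_, fun i => ?_, ?_⟩
      · simpa [hk] using h3.1
      · simpa [hk] using h3.2.1
      · rw [h3.2.2.R 14 (by omega) (by simp), h2.2.1]; simp
      · rw [h3.2.2.M _ (by omega), h2.2.2.2, writeMem, h1.2.1, hk, h1.2.2.M _ (by omega), hM]
        rcases lt_trichotomy i p.length with hi | hi | hi
        · rw [if_neg (by omega), List.getD_append _ _ _ _ hi]
        · subst hi; simp [pcode]
        · rw [if_neg (by omega), List.getD_eq_default _ _ (by omega),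
            List.getD_eq_default _ _ (by simp; omega)]
      · exact (h1.2.2.toR.trans (ms'' := [8, 9, 14]) h2.2.2.1).trans h3.2.2.toR
    refine (Tr.wF (by rw [h8, h.r2]; simp [pcode]) body fun σ' h' =>
      (tr_readQ_loop hw k hN rest q (p ++ [b]) h'.1 (hS1 _ (by simp [hk]; omega)) (by simp) h'.2.1
        h'.2.2.1 h'.2.2.2.1 (by simp; omega)).imp fun σ'' h'' => ⟨by simpa using h''.1,
          by simpa using h''.2.1, by simpa using h''.2.2.1, h'.2.2.2.2.trans h''.2.2.2⟩).mono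
      (by simp only [List.length_cons]; omega)

theorem tr_readQ (hw : 2 * C.H = 2 ^ E.w) (k : K) {N : ℕ} (hN : Room C N) {q rest : List Bool}
    {σ : St} {S : K → List Bool} (h : Rep C σ S) (hS : ∀ j, (S j).length ≤ N)
    (hk : S k = dbl q ++ false :: rest) (hM : ∀ i, σ.M (C.H + i) = 0) (hq : q.length < C.H) :
    Tr E (readQ (C.e k)) σ (fun σ' => Rep C σ' (upd S k rest) ∧
      σ'.R 14 = C.H + q.length ∧ (∀ i, σ'.M (C.H + i) = (q.getD i false).toNat) ∧
      FrR [8, 9, 14] σ σ') (14 * q.length + 7) := by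
  refine (Tr.seqAt (Tr.bind (tr_pop (h.set 14 _) k) fun σ1 h1 =>
    (tr_readQ_loop hw k hN rest q [] h1.1 (upd_len hS (by simp; have := hS k; omega)) (by simp [hk])
      (by rw [h1.2.1, hk]) (by rw [h1.2.2.R 14 (by omega) (by simp)]; simp [h.r7])
      (fun i => by rw [h1.2.2.M _ (by omega)]; simp [hM]) (by simpa using hq)).imp
      fun σ2 h2 => ⟨by simpa using h2.1, by simpa using h2.2.1, by simpa using h2.2.2.1,
        ((FrR.set σ 14 _).trans (ms'' := [8, 9, 14]) h1.2.2.toR).trans h2.2.2.2⟩)).mono (by omega)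

/-- Clear the scratch area. -/
def clearQ : Stm := .wne 14 7 (.seq (.at (.sub 14 14 3)) (.at (.store 2 14)))

theorem tr_clearQ {S : K → List Bool} {N : ℕ} (hN : Room C N) (hS : ∀ k, (S k).length ≤ N) :
    ∀ (m : ℕ) {σ : St}, Rep C σ S → σ.R 14 = C.H + m → (∀ i, m ≤ i → σ.M (C.H + i) = 0) →
    Tr E clearQ σ (fun σ' => Rep C σ' S ∧ (∀ i, σ'.M (C.H + i) = 0) ∧ FrR [14] σ σ') (4 * m + 1)
  | 0, σ, h, h14, hM =>
    Tr.wT (by rw [h14, h.r7]; rfl) ⟨h, fun i => hM i (Nat.zero_le _), FrR.refl _ _⟩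
  | m + 1, σ, h, h14, hM => by
    have e : σ.R 14 - σ.R 3 = C.H + m := by rw [h14, h.r3]; omega
    have body : Tr E (.seq (.at (.sub 14 14 3)) (.at (.store 2 14))) σ (fun σ' => Rep C σ' S ∧
        σ'.R 14 = C.H + m ∧ (∀ i, m ≤ i → σ'.M (C.H + i) = 0) ∧ FrR [14] σ σ') 2 := by
      refine Tr.seqAt (Tr.atom ⟨(h.set 14 (C.H + m)).mem hN hS (by simp [At.ex, e]) fun a ha => ?_,
        by simp [At.ex, e], fun i hi => ?_, ⟨fun j _ hj => by simp at hj; simp [At.ex, hj], rfl, rfl⟩⟩)
      · simp only [At.ex, e, St.set_R, if_true, St.set_M]; rw [writeMem, if_neg (by omega)]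
      · simp only [At.ex, e, St.set_R, if_true, St.set_M, writeMem]
        split_ifs with h1 h2
        · omega
        · exact h.r2
        · exact hM i (by omega)
    exact (Tr.wF (by rw [h14, h.r7]; omega) body fun σ' h' =>
      (tr_clearQ hN hS m h'.1 h'.2.1 h'.2.2.1).imp fun σ'' h'' =>
        ⟨h''.1, h''.2.1, h'.2.2.2.trans h''.2.2⟩).mono (by omega)

/-! ### Writing the output -/

/-- Loop body reading one bit of a word. -/
def rdBitB (j : ℕ) : Stm :=
  .seq (popC j) (.seq (.at (.add 12 12 12)) (.seq (.at (.add 12 12 8)) (popC j)))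

theorem tr_rdWord (k : K) (rest : List Bool) : ∀ (q : List Bool) (a : ℕ) {σ : St}
    {S : K → List Bool}, Rep C σ S → S k = (dbl q ++ false :: rest).tail →
    σ.R 8 = pcode (dbl q ++ false :: rest).head? → σ.R 12 = a →
    a * 2 ^ q.length + valR q < 2 ^ E.w →
    Tr E (.wne 8 2 (rdBitB (C.e k))) σ (fun σ' => Rep C σ' (upd S k rest) ∧
      σ'.R 12 = a * 2 ^ q.length + valR q ∧ Fr C [8, 9, 12] σ σ') (14 * q.length + 1)
  | [], a, σ, S, h, hk, h8, h12, _ => by
    refine Tr.wT (by rw [h8, h.r2]; rfl) ⟨?_, by simpa [valR] using h12, Fr.refl _ _⟩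
    have : rest = S k := by simpa using hk.symm
    rw [this, upd_self]; exact h
  | b :: q, a, σ, S, h, hk, h8, h12, hlt => by
    simp only [dbl_cons, List.cons_append, List.tail_cons, List.head?_cons] at hk h8
    have e : a * 2 ^ (b :: q).length + valR (b :: q) = (a + a + b.toNat) * 2 ^ q.length + valR q := by
      rw [valR_cons, List.length_cons, pow_succ]; ring
    rw [e] at hlt ⊢
    have hlt' : a + a + b.toNat < 2 ^ E.w := by
      have := Nat.le_mul_of_pos_right (a + a + b.toNat) (Nat.two_pow_pos q.length)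
      omega
    have body : Tr E (rdBitB (C.e k)) σ (fun σ' =>
        Rep C σ' (upd S k (dbl q ++ false :: rest).tail) ∧
        σ'.R 8 = pcode (dbl q ++ false :: rest).head? ∧ σ'.R 12 = a + a + b.toNat ∧
        Fr C [8, 9, 12] σ σ') 12 := by
      refine Tr.bind (b := 7) (tr_pop h k) fun σ1 h1 => Tr.seqAt (b := 6) (Tr.seqAt (b := 5)
        ((tr_pop ((h1.1.set 12 _).set 12 _) k).imp fun σ3 h3 => ⟨?_, ?_, ?_, ?_⟩))
      · simpa [hk] using h3.1
      · simpa [hk] using h3.2.1
      · rw [h3.2.2.R 12 (by omega) (by simp)]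
        simp only [At.ex, St.set_R, if_true, show ((8 : ℕ) = 12) = False by simp, if_false,
          h1.2.1, hk, List.head?_cons, pcode, h1.2.2.R 12 (by omega) (by simp), h12]
        rw [Nat.mod_eq_of_lt (a := a + a) (by omega), Nat.mod_eq_of_lt hlt']
      · exact ((h1.2.2.trans (ms'' := [8, 9, 12]) (Fr.set _ 12 _)).trans (ms'' := [8, 9, 12])
          (Fr.set _ 12 _)).trans h3.2.2
    exact (Tr.wF (by rw [h8, h.r2]; simp [pcode]) body fun σ' h' =>
      (tr_rdWord k rest q _ h'.1 (by simp) h'.2.1 h'.2.2.1 hlt).imp fun σ'' h'' =>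
        ⟨by simpa using h''.1, h''.2.1, h'.2.2.2.trans h''.2.2⟩).mono
      (by simp only [List.length_cons]; omega)

/-- Loop body writing one output word. -/
def outB (j : ℕ) : Stm :=
  .seq (.at (.copy 12 2)) (.seq (.wne 8 2 (rdBitB j)) (.seq (putC 12)
    (.seq (.at (.add 0 0 3)) (popC j))))

/-- Write the list of words coded on stack `j` as the output. -/
def outC (j : ℕ) : Stm :=
  .seq (.at (.copy 14 7)) (.seq (.at (.copy 0 2)) (.seq (.at (.copy 1 7))
    (.seq (popC j) (.wne 8 4 (outB j)))))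

theorem tr_out_loop (hw : 2 * C.H = 2 ^ E.w) (k : K) {N : ℕ} (hN : Room C N) :
    ∀ (vs p : List ℕ) {σ : St} {S : K → List Bool}, Rep C σ S → (∀ j, (S j).length ≤ N) →
    S k = (enc (vs.map wd)).tail → σ.R 8 = pcode (enc (vs.map wd)).head? →
    σ.R 14 = C.H + p.length → σ.R 0 = p.length → (∀ i < p.length, σ.M (C.H + i) = p.getD i 0) →
    p.length + vs.length < C.H → (∀ v ∈ vs, v < 2 ^ E.w) →
    Tr E (.wne 8 4 (outB (C.e k))) σ (fun σ' => σ'.R 0 = (p ++ vs).length ∧
      (∀ i < (p ++ vs).length, σ'.M (C.H + i) = (p ++ vs).getD i 0) ∧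
      FrR [0, 8, 9, 12, 14] σ σ') (14 * sz (vs.map wd) + 1)
  | [], p, σ, S, h, _, _, h8, _, h0, hM, _, _ =>
    Tr.wT (by rw [h8, h.r4]; rfl) ⟨by simpa using h0, by simpa using hM, FrR.refl _ _⟩
  | v :: vs, p, σ, S, h, hS, hk, h8, h14, h0, hM, hlen, hv => by
    rw [List.map_cons, enc_cons] at hk h8
    simp only [List.length_cons] at hlen
    have hvv : 0 * 2 ^ (enc (wd v)).length + valR (enc (wd v)) = v := by
      simp [wd, valR_bits]
    have hS1 : ∀ l : List Bool, l.length ≤ (S k).length → ∀ j, (upd S k l j).length ≤ N :=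
      fun l hl => upd_len hS (hl.trans (hS k))
    have body : Tr E (outB (C.e k)) σ (fun σ' =>
        Rep C σ' (upd S k (enc (vs.map wd)).tail) ∧ σ'.R 8 = pcode (enc (vs.map wd)).head? ∧
        σ'.R 14 = C.H + (p ++ [v]).length ∧ σ'.R 0 = (p ++ [v]).length ∧
        (∀ i < (p ++ [v]).length, σ'.M (C.H + i) = (p ++ [v]).getD i 0) ∧
        FrR [0, 8, 9, 12, 14] σ σ') (1 + ((14 * (enc (wd v)).length + 1) + (2 + (1 + 5)))) := by
      refine Tr.seqAt (Tr.bind (tr_rdWord k (enc (vs.map wd)) (enc (wd v)) 0 (h.set 12 _) hk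
        (by simpa [At.ex] using h8) (by simp [At.ex, h.r2]) (by rw [hvv]; exact hv v (by simp))) fun σ1 h1 =>
        Tr.bind (tr_put hw h1.1 hN (hS1 _ (by simp [hk])) 12 (m := p.length)
          (by rw [h1.2.2.R 14 (by omega) (by simp)]; simpa [At.ex] using h14) (by omega)) fun σ2 h2 =>
        Tr.seqAt ((tr_pop (h2.1.set 0 _) k).imp fun σ3 h3 => ⟨?_, ?_, ?_, ?_, fun i hi => ?_, ?_⟩))
      · simpa using h3.1
      · simpa using h3.2.1
      · rw [h3.2.2.R 14 (by omega) (by simp)]; simpa using h2.2.1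
      · rw [h3.2.2.R 0 (by omega) (by simp)]
        simp only [St.set_R, if_true, h2.1.r3]
        rw [h2.2.2.1.R 0 (by omega) (by simp), h1.2.2.R 0 (by omega) (by simp)]
        simp only [At.ex, St.set_R, show ((0 : ℕ) = 12) = False by simp, if_false, h0]
        rw [Nat.mod_eq_of_lt (by omega)]; simp
      · rw [h3.2.2.M _ (by omega), St.set_M, h2.2.2.2, writeMem, h1.2.1, hvv,
          h1.2.2.M _ (by omega)]
        simp only [List.length_append, List.length_cons, List.length_nil] at hi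
        by_cases hi' : i < p.length
        · rw [if_neg (by omega), List.getD_append _ _ _ _ hi']; exact hM i hi'
        · obtain rfl : i = p.length := by omega
          simp
      · exact ((((FrR.set σ 12 _).trans (ms'' := [0, 8, 9, 12, 14]) h1.2.2.toR).trans
          (ms'' := [0, 8, 9, 12, 14]) h2.2.2.1).trans (ms'' := [0, 8, 9, 12, 14])
          (FrR.set _ 0 _)).trans h3.2.2.toR
    refine (Tr.wF ?_ body fun σ' h' =>
      (tr_out_loop hw k hN vs (p ++ [v]) h'.1 (hS1 _ (by simp [hk]; omega)) (by simp) h'.2.1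
        h'.2.2.1 h'.2.2.2.1 h'.2.2.2.2.1 (by simp; omega) fun u hu => hv u (by simp [hu])).imp
        fun σ'' h'' => ⟨by simpa using h''.1, by simpa using h''.2.1,
          h'.2.2.2.2.2.trans h''.2.2⟩).mono ?_
    · rw [h8, h.r4]
      cases enc (wd v) <;> simp [pcode]
    · rw [List.map_cons, sz_cons]; unfold sz; omega

theorem tr_out (hw : 2 * C.H = 2 ^ E.w) (k : K) {N : ℕ} (hN : Room C N) {vs : List ℕ} {σ : St}
    {S : K → List Bool} (h : Rep C σ S) (hS : ∀ j, (S j).length ≤ N) (hk : S k = enc (vs.map wd))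
    (hlen : vs.length < C.H) (hv : ∀ v ∈ vs, v < 2 ^ E.w) :
    Tr E (outC (C.e k)) σ (fun σ' => σ'.R 0 = vs.length ∧ σ'.R 1 = C.H ∧
      (∀ i < vs.length, σ'.M (C.H + i) = vs.getD i 0) ∧ σ'.q = σ.q) (14 * sz (vs.map wd) + 9) := by
  refine (Tr.seqAt (Tr.seqAt (Tr.seqAt (Tr.bind (tr_pop (((h.set 14 _).set 0 _).set 1 _) k)
    fun σ1 h1 => (tr_out_loop hw k hN vs [] h1.1 (upd_len hS (by simp; have := hS k; omega))
      (by simp [hk]) (by rw [h1.2.1, hk])
      (by rw [h1.2.2.R 14 (by omega) (by simp)]; simp [At.ex, h.r7])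
      (by rw [h1.2.2.R 0 (by omega) (by simp)]; simp [At.ex, h.r2]) (by simp)
      (by simpa using hlen) hv).imp fun σ2 h2 => ⟨by simpa using h2.1, ?_, by simpa using h2.2.1,
        by rw [h2.2.2.q, h1.2.2.q]; rfl⟩)))).mono (by omega)
  rw [h2.2.2.R 1 (by omega) (by simp), h1.2.2.R 1 (by omega) (by simp)]
  simp [At.ex, h.r7]

end Crest.Agent.ORAM
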