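import Mathlib
import Crest.Prelude.Def_OracleRAM

/-! A small structured language over the oracle word RAM and its compiler. -/

set_option autoImplicit false

namespace Crest.Agent.ORAM

open Crest.WordRAM Crest.OracleRAM

/-- Straight-line instructions, registers named by natural numbers. -/
inductive At : Type
  | const (d v : ℕ)
  | copy (d s : ℕ)
  | add (d a b : ℕ)
  | sub (d a b : ℕ)
  | quot (d a b : ℕ)
  | rem (d a b : ℕ)
  | load (d a : ℕ)
  | store (s a : ℕ)
  | rand (d : ℕ)
  | query (b : Bool) (a d : ℕ)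

/-- Structured programs. -/
inductive Stm : Type
  | skip
  | at (i : At)
  | seq (s t : Stm)
  | ifeq (a b : ℕ) (s t : Stm)
  | wne (a b : ℕ) (s : Stm)

/-- Machine state without program counter. -/
structure St : Type where
  R : ℕ → ℕ
  M : ℕ → ℕ
  d : ℕ
  q : ℕ

/-- The environment of a run. -/
structure Env : Type where
  n : ℕ
  O : Bool → Finset (Fin n) → ℕ
  w : ℕ
  ρ : ℕ → ℕ

/-- Set a register. -/
def St.set (σ : St) (r v : ℕ) : St := { σ with R := Function.update σ.R r v }

@[simp] theorem St.set_M (σ : St) (r v : ℕ) : (σ.set r v).M = σ.M := rfl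
@[simp] theorem St.set_d (σ : St) (r v : ℕ) : (σ.set r v).d = σ.d := rfl
@[simp] theorem St.set_q (σ : St) (r v : ℕ) : (σ.set r v).q = σ.q := rfl
@[simp] theorem St.set_R (σ : St) (r v j : ℕ) :
    (σ.set r v).R j = if j = r then v else σ.R j := by
  simp [St.set, Function.update_apply]

/-- The set presented to the oracle. -/
def qset (n : ℕ) (M : ℕ → ℕ) (a : ℕ) : Finset (Fin n) :=
  Finset.univ.filter fun j : Fin n => M (a + j.val) ≠ 0

/-- Semantics of a straight-line instruction. -/
def At.ex (E : Env) : At → St → St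
  | .const d v, σ => σ.set d (v % 2 ^ E.w)
  | .copy d s, σ => σ.set d (σ.R s)
  | .add d a b, σ => σ.set d ((σ.R a + σ.R b) % 2 ^ E.w)
  | .sub d a b, σ => σ.set d (σ.R a - σ.R b)
  | .quot d a b, σ => σ.set d (σ.R a / σ.R b)
  | .rem d a b, σ => σ.set d (σ.R a % σ.R b)
  | .load d a, σ => σ.set d (σ.M (σ.R a))
  | .store s a, σ => { σ with M := writeMem σ.M (σ.R a) (σ.R s) }
  | .rand d, σ => { σ.set d (E.ρ σ.d % 2 ^ E.w) with d := σ.d + 1 }
  | .query b a d, σ => { σ.set d (E.O b (qset E.n σ.M (σ.R a)) % 2 ^ E.w) with q := σ.q + 1 }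

/-- Big-step semantics with an upper bound on the number of machine steps. -/
inductive Exec (E : Env) : Stm → St → St → ℕ → Prop
  | skip (σ : St) : Exec E .skip σ σ 0
  | at (i : At) (σ : St) : Exec E (.at i) σ (i.ex E σ) 1
  | seq {s t : Stm} {σ σ' σ'' : St} {a b : ℕ} :
      Exec E s σ σ' a → Exec E t σ' σ'' b → Exec E (.seq s t) σ σ'' (a + b)
  | ifT {a b : ℕ} {s t : Stm} {σ σ' : St} {c : ℕ} :
      σ.R a = σ.R b → Exec E s σ σ' c → Exec E (.ifeq a b s t) σ σ' (c + 2)
  | ifF {a b : ℕ} {s t : Stm} {σ σ' : St} {c : ℕ} :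
      σ.R a ≠ σ.R b → Exec E t σ σ' c → Exec E (.ifeq a b s t) σ σ' (c + 2)
  | wT {a b : ℕ} {s : Stm} {σ : St} : σ.R a = σ.R b → Exec E (.wne a b s) σ σ 1
  | wF {a b : ℕ} {s : Stm} {σ σ' σ'' : St} {c c' : ℕ} :
      σ.R a ≠ σ.R b → Exec E s σ σ' c → Exec E (.wne a b s) σ' σ'' c' →
      Exec E (.wne a b s) σ σ'' (c + 2 + c')
  | mono {s : Stm} {σ σ' : St} {c c' : ℕ} : Exec E s σ σ' c → c ≤ c' → Exec E s σ σ' c'

/-- All registers of an instruction are below `r`. -/
def At.ok (r : ℕ) : At → Prop
  | .const d _ => d < r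
  | .copy d s => d < r ∧ s < r
  | .add d a b => d < r ∧ a < r ∧ b < r
  | .sub d a b => d < r ∧ a < r ∧ b < r
  | .quot d a b => d < r ∧ a < r ∧ b < r
  | .rem d a b => d < r ∧ a < r ∧ b < r
  | .load d a => d < r ∧ a < r
  | .store s a => s < r ∧ a < r
  | .rand d => d < r
  | .query _ a d => a < r ∧ d < r

/-- All registers of a program are below `r`. -/
def Stm.ok (r : ℕ) : Stm → Prop
  | .skip => True
  | .at i => i.ok r
  | .seq s t => s.ok r ∧ t.ok r
  | .ifeq a b s t => a < r ∧ b < r ∧ s.ok r ∧ t.ok r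
  | .wne a b s => a < r ∧ b < r ∧ s.ok r

/-- Length of the compiled code. -/
def Stm.len : Stm → ℕ
  | .skip => 0
  | .at _ => 1
  | .seq s t => s.len + t.len
  | .ifeq _ _ s t => s.len + t.len + 2
  | .wne _ _ s => s.len + 2

section
variable (r : ℕ) [NeZero r]

/-- Register names as machine registers. -/
def rg (i : ℕ) : Fin r := Fin.ofNat r i

theorem rg_val {i : ℕ} (h : i < r) : (rg r i).val = i := by
  simp [rg, Nat.mod_eq_of_lt h]

/-- Compile an instruction. -/
def At.comp : At → OInstr r
  | .const d v => .base (.const (rg r d) v)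
  | .copy d s => .base (.copy (rg r d) (rg r s))
  | .add d a b => .base (.add (rg r d) (rg r a) (rg r b))
  | .sub d a b => .base (.sub (rg r d) (rg r a) (rg r b))
  | .quot d a b => .base (.quot (rg r d) (rg r a) (rg r b))
  | .rem d a b => .base (.rem (rg r d) (rg r a) (rg r b))
  | .load d a => .base (.load (rg r d) (rg r a))
  | .store s a => .base (.store (rg r s) (rg r a))
  | .rand d => .base (.rand (rg r d))
  | .query b a d => .query b (rg r a) (rg r d)

/-- Compile a program placed at position `o`. -/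
def Stm.comp : Stm → ℕ → List (OInstr r)
  | .skip, _ => []
  | .at i, _ => [i.comp r]
  | .seq s t, o => s.comp o ++ t.comp (o + s.len)
  | .ifeq a b s t, o => .base (.jumpIfEq (rg r a) (rg r b) (o + t.len + 2)) ::
      (t.comp (o + 1) ++ .base (.jump (o + (s.len + t.len + 2))) :: s.comp (o + t.len + 2))
  | .wne a b s, o => .base (.jumpIfEq (rg r a) (rg r b) (o + (s.len + 2))) ::
      (s.comp (o + 1) ++ [.base (.jump o)])

theorem Stm.length_comp (s : Stm) (o : ℕ) : (s.comp r o).length = s.len := by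
  induction s generalizing o with
  | skip => rfl
  | «at» i => rfl
  | seq s t ihs iht => simp [Stm.comp, Stm.len, ihs, iht]
  | ifeq a b s t ihs iht => simp [Stm.comp, Stm.len, ihs, iht]; omega
  | wne a b s ih => simp [Stm.comp, Stm.len, ih]

/-- The configuration at program counter `pc` in state `σ`. -/
def cfgOf (pc : ℕ) (σ : St) : OCfg r :=
  ⟨⟨pc, false, fun j => σ.R j.val, σ.M, σ.d⟩, σ.q⟩

end

/-- `l` occurs in `code` at position `o`. -/
def Sub {α : Type} (code : List α) (o : ℕ) (l : List α) : Prop :=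
  ∀ i, i < l.length → code[o + i]? = l[i]?

theorem Sub.left {α : Type} {code : List α} {o : ℕ} {l l' : List α} (h : Sub code o (l ++ l')) :
    Sub code o l := fun i hi => by
  rw [h i (by simp; omega), List.getElem?_append_left hi]

theorem Sub.right {α : Type} {code : List α} {o : ℕ} {l l' : List α} (h : Sub code o (l ++ l')) :
    Sub code (o + l.length) l' := fun i hi => by
  rw [add_assoc, h _ (by simp; omega), List.getElem?_append_right (by omega)]
  simp

theorem Sub.head {α : Type} {code : List α} {o : ℕ} {x : α} {l : List α}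
    (h : Sub code o (x :: l)) : code[o]? = some x := by
  simpa using h 0 (by simp)

theorem Sub.tail {α : Type} {code : List α} {o : ℕ} {x : α} {l : List α}
    (h : Sub code o (x :: l)) : Sub code (o + 1) l :=
  Sub.right (l := [x]) (l' := l) h

section
variable {r : ℕ} [NeZero r] (code : List (OInstr r)) (E : Env)

/-- One machine step. -/
def stp : OCfg r → OCfg r := ostep ⟨r, code⟩ E.n E.O E.w E.ρ

variable {code E}

theorem writeReg_eq {R : ℕ → ℕ} {d : ℕ} (hd : d < r) (v : ℕ) :
    writeReg (fun j : Fin r => R j.val) (rg r d) v = fun j : Fin r => Function.update R d v j.val := by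
  funext j
  simp only [writeReg, Function.update_apply, Fin.ext_iff, rg_val r hd]

omit [NeZero r] in
theorem base_code {o : ℕ} {x : Option (OInstr r)} (h : code[o]? = x) :
    (baseProgram ⟨r, code⟩).code[o]? = x.map OInstr.toBase := by
  change (code.map OInstr.toBase)[o]? = _
  rw [List.getElem?_map, h]

theorem stp_of_base {o : ℕ} {i : Instr r} (h : code[o]? = some (.base i)) (σ : St) :
    stp code E (cfgOf r o σ) =
      ⟨Crest.WordRAM.step (baseProgram ⟨r, code⟩) E.w E.ρ (cfgOf r o σ).cfg, σ.q⟩ := by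
  simp only [stp, ostep, cfgOf, h, Bool.false_eq_true, if_false]

theorem stp_at {o : ℕ} {i : At} (hi : i.ok r) (h : code[o]? = some (i.comp r)) (σ : St) :
    stp code E (cfgOf r o σ) = cfgOf r (o + 1) (i.ex E σ) := by
  have hb : (baseProgram ⟨r, code⟩).code[(cfgOf r o σ).cfg.pc]? = _ := base_code h
  cases i with
  | query b a d =>
    simp only [At.ok] at hi
    simp only [stp, ostep, cfgOf, h, At.comp, Bool.false_eq_true, if_false, At.ex, St.set, qset]
    simp only [writeReg_eq, rg_val, hi]
  | _ =>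
    simp only [At.ok] at hi
    rw [stp_of_base h]
    unfold Crest.WordRAM.step
    rw [if_neg (by simp [cfgOf]), hb]
    simp only [At.comp, Option.map_some, OInstr.toBase, cfgOf, At.ex, St.set]
    try simp only [rg_val, hi]
    first | rfl | (rw [← writeReg_eq (r := r) (by first | exact hi | exact hi.1)]; rfl)

theorem stp_jump {o l : ℕ} (h : code[o]? = some (.base (.jump l))) (σ : St) :
    stp code E (cfgOf r o σ) = cfgOf r l σ := by
  have hb : (baseProgram ⟨r, code⟩).code[(cfgOf r o σ).cfg.pc]? = _ := base_code h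
  rw [stp_of_base h]
  unfold Crest.WordRAM.step
  rw [if_neg (by simp [cfgOf]), hb]
  rfl

theorem stp_jeq {o l a b : ℕ} (ha : a < r) (hb : b < r)
    (h : code[o]? = some (.base (.jumpIfEq (rg r a) (rg r b) l))) (σ : St) :
    stp code E (cfgOf r o σ) = cfgOf r (if σ.R a = σ.R b then l else o + 1) σ := by
  have hc : (baseProgram ⟨r, code⟩).code[(cfgOf r o σ).cfg.pc]? = _ := base_code h
  rw [stp_of_base h]
  unfold Crest.WordRAM.step
  rw [if_neg (by simp [cfgOf]), hc]
  simp only [Option.map_some, OInstr.toBase, cfgOf, rg_val, ha, hb]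
  rfl

/-- Reachability in at most `t` steps. -/
def Rch (code : List (OInstr r)) (E : Env) (c c' : OCfg r) (t : ℕ) : Prop :=
  ∃ t' ≤ t, (stp code E)^[t'] c = c'

omit [NeZero r] in
theorem Rch.trans {c c' c'' : OCfg r} {t t' : ℕ} (h : Rch code E c c' t) (h' : Rch code E c' c'' t') :
    Rch code E c c'' (t + t') := by
  obtain ⟨a, ha, rfl⟩ := h
  obtain ⟨b, hb, rfl⟩ := h'
  exact ⟨b + a, by omega, by rw [Function.iterate_add_apply]⟩

omit [NeZero r] in
theorem Rch.one {c c' : OCfg r} (h : stp code E c = c') : Rch code E c c' 1 := ⟨1, le_rfl, h⟩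

omit [NeZero r] in
theorem Rch.mono {c c' : OCfg r} {t t' : ℕ} (h : Rch code E c c' t) (ht : t ≤ t') :
    Rch code E c c' t' := by
  obtain ⟨a, ha, h⟩ := h
  exact ⟨a, ha.trans ht, h⟩

/-- Correctness of the compiler. -/
theorem Exec.rch {s : Stm} {σ σ' : St} {t : ℕ} (h : Exec E s σ σ' t) :
    ∀ {o : ℕ}, s.ok r → Sub code o (s.comp r o) →
      Rch code E (cfgOf r o σ) (cfgOf r (o + s.len) σ') t := by
  induction h with
  | skip σ => intro o _ _; exact ⟨0, le_rfl, rfl⟩
  | «at» i σ => intro o hk hs; exact Rch.one (stp_at hk hs.head σ)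
  | seq _ _ ih1 ih2 =>
    intro o hk hs
    have h2 := hs.right
    rw [Stm.length_comp] at h2
    have := (ih1 hk.1 hs.left).trans (ih2 hk.2 h2)
    rwa [add_assoc] at this
  | @ifT a b s t σ σ' c he _ ih =>
    intro o hk hs
    have h1 := stp_jeq (E := E) hk.1 hk.2.1 hs.head σ
    rw [if_pos he] at h1
    have h2 := hs.tail.right.tail
    rw [Stm.length_comp, show o + 1 + t.len + 1 = o + t.len + 2 by omega] at h2
    have := (Rch.one h1).trans (ih hk.2.2.1 h2)
    rw [show o + t.len + 2 + s.len = o + (Stm.ifeq a b s t).len by simp [Stm.len]; omega] at this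
    exact this.mono (by omega)
  | @ifF a b s t σ σ' c he _ ih =>
    intro o hk hs
    have h1 := stp_jeq (E := E) hk.1 hk.2.1 hs.head σ
    rw [if_neg he] at h1
    have h2 := hs.tail.right.head
    rw [Stm.length_comp] at h2
    have := ((Rch.one h1).trans (ih hk.2.2.2 hs.tail.left)).trans (Rch.one (stp_jump h2 σ'))
    exact this.mono (by omega)
  | @wT a b s σ he =>
    intro o hk hs
    have h1 := stp_jeq (E := E) hk.1 hk.2.1 hs.head σ
    rw [if_pos he] at h1
    exact Rch.one h1
  | @wF a b s σ σ' σ'' c c' he _ _ ih1 ih2 =>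
    intro o hk hs
    have h1 := stp_jeq (E := E) hk.1 hk.2.1 hs.head σ
    rw [if_neg he] at h1
    have h2 := hs.tail.right.head
    rw [Stm.length_comp] at h2
    have := (((Rch.one h1).trans (ih1 hk.2.2 hs.tail.left)).trans
      (Rch.one (stp_jump h2 σ'))).trans (ih2 hk hs)
    exact this.mono (by omega)
  | mono _ hc ih => intro o hk hs; exact (ih hk hs).mono hc

/-- One iteration of a loop takes at least one step. -/
theorem loop_iter {a b : ℕ} {s : Stm} {σ σ' : St} {t o : ℕ} (hk : (Stm.wne a b s).ok r)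
    (hs : Sub code o ((Stm.wne a b s).comp r o)) (he : σ.R a ≠ σ.R b) (h : Exec E s σ σ' t) :
    ∃ t', 1 ≤ t' ∧ t' ≤ t + 2 ∧ (stp code E)^[t'] (cfgOf r o σ) = cfgOf r o σ' := by
  have h1 := stp_jeq (E := E) hk.1 hk.2.1 hs.head σ
  rw [if_neg he] at h1
  have h2 := hs.tail.right.head
  rw [Stm.length_comp] at h2
  obtain ⟨u, hu, h3⟩ := (h.rch hk.2.2 hs.tail.left).trans (Rch.one (stp_jump h2 σ'))
  exact ⟨u + 1, by omega, by omega, by rw [Function.iterate_succ_apply, h1, h3]⟩

omit [NeZero r] in
theorem stp_halted {c : OCfg r} (h : c.cfg.halted = true) : stp code E c = c := by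
  simp [stp, ostep, h]

omit [NeZero r] in
theorem iter_halted {c : OCfg r} (h : c.cfg.halted = true) (t : ℕ) : (stp code E)^[t] c = c := by
  induction t with
  | zero => rfl
  | succ t ih => rw [Function.iterate_succ_apply, stp_halted h, ih]

omit [NeZero r] in
/-- Halting is stable in time. -/
theorem iter_stable {c : OCfg r} {t t' : ℕ} (h : ((stp code E)^[t] c).cfg.halted = true)
    (ht : t ≤ t') : (stp code E)^[t'] c = (stp code E)^[t] c := by
  obtain ⟨k, rfl⟩ := Nat.exists_eq_add_of_le ht
  rw [add_comm, Function.iterate_add_apply, iter_halted h]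

theorem stp_end {o : ℕ} (h : code.length ≤ o) (σ : St) :
    stp code E (cfgOf r o σ) = ⟨⟨o, true, fun j => σ.R j.val, σ.M, σ.d⟩, σ.q⟩ := by
  have : code[o]? = none := List.getElem?_eq_none h
  simp [stp, ostep, cfgOf, this]

omit [NeZero r] in
theorem calls_stp (c : OCfg r) : c.calls ≤ (stp code E c).calls := by
  unfold stp ostep
  split_ifs
  · exact le_rfl
  · split <;> simp

omit [NeZero r] in
theorem stp_base {c : OCfg r} (h : (stp code E c).calls ≤ c.calls) :
    (stp code E c).cfg = Crest.WordRAM.step (baseProgram ⟨r, code⟩) E.w E.ρ c.cfg := by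
  unfold stp ostep at *
  split_ifs with hh
  · simp [Crest.WordRAM.step, hh]
  · split
    · rename_i h1
      have hb : (baseProgram ⟨r, code⟩).code[c.cfg.pc]? = _ := base_code h1
      unfold Crest.WordRAM.step
      rw [if_neg hh, hb]
      rfl
    · rfl
    · rename_i h1
      simp [hh, h1] at h

omit [NeZero r] in
theorem calls_iter (c : OCfg r) (t : ℕ) : c.calls ≤ ((stp code E)^[t] c).calls := by
  induction t with
  | zero => exact le_rfl
  | succ t ih => rw [Function.iterate_succ_apply']; exact ih.trans (calls_stp _)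

omit [NeZero r] in
/-- A run without oracle calls is a run of the plain program. -/
theorem iter_base (c : OCfg r) (t : ℕ) (h : ((stp code E)^[t] c).calls ≤ c.calls) :
    ((stp code E)^[t] c).cfg =
      (Crest.WordRAM.step (baseProgram ⟨r, code⟩) E.w E.ρ)^[t] c.cfg := by
  induction t with
  | zero => rfl
  | succ t ih =>
    rw [Function.iterate_succ_apply'] at h
    rw [Function.iterate_succ_apply', Function.iterate_succ_apply',
      stp_base (h.trans (calls_iter c t)), ih ((calls_stp _).trans h)]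

end

end Crest.Agent.ORAM
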