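import Crest.Agent.ORAM.Round

/-! Simulation of round machines on the (oracle) word RAM. -/

set_option autoImplicit false

namespace Crest.Agent.ORAM

open Crest.Agent.PT Crest.Agent.R317 Crest.WordRAM Crest.OracleRAM

/-- Numbering of the stacks. -/
noncomputable def stackNo (τ : Type) [Finite τ] : Option τ → ℕ
  | none => 0
  | some t => (Finite.equivFin τ t).val + 1

/-- The memory layout for word length `w` and `m` input words. -/
noncomputable def layout (τ : Type) [Finite τ] (w m : ℕ) : Cx (Option τ) where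
  κ := Nat.card τ + 1
  b := m
  H := 2 ^ (w - 1)
  e := stackNo τ
  e_lt := by
    rintro (_ | t)
    · simp [stackNo]
    · simp [stackNo]
  e_inj := by
    rintro (_ | a) (_ | b) h <;> simp only [stackNo] at h
    · rfl
    · omega
    · omega
    · rw [(Finite.equivFin τ).injective (a₁ := a) (a₂ := b) (Fin.ext (by omega))]

theorem exists_pow_bound (kb k a b : ℕ) : ∃ c : ℕ, ∀ u, 2 ≤ u →
    a * (u ^ kb + 3 * u * u + (3 * u * u + 2) ^ k) + b ≤ u ^ c := by
  have hu : PB (fun n : ℕ => n + 2) := (PB.size.add (PB.const 2)).of_le fun n => by simp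
  have h3 : PB (fun n : ℕ => 3 * (n + 2) * (n + 2)) := ((PB.const 3).mul hu).mul hu
  obtain ⟨c, hc⟩ := (((PB.const a).mul (((hu.pow kb).add h3).add ((h3.add (PB.const 2)).pow k))).add
    (PB.const b))
  refine ⟨c, fun u h => ?_⟩
  obtain ⟨n, rfl⟩ := Nat.exists_eq_add_of_le' h
  simpa using hc n

namespace Rnd

variable {σ : Type} [Enc σ] (A : Rnd σ)

theorem sim_aux : ∃ (r : ℕ) (code : List (OInstr r)) (c : ℕ), ∀ (E : Env) (x : List ℕ) (K : ℕ),
    (∀ i ≤ K, A.cost E c x i < 2 ^ E.w) →
    (A.act (A.st E x K).1 = 0 → (∀ v ∈ A.out (A.st E x K).1, v.val < 2 ^ E.w) →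
      ∀ T, ∑ i ∈ Finset.range (K + 1), A.cost E c x i ≤ T →
        (orun ⟨r, code⟩ E.n E.O E.w E.ρ x T).cfg.halted = true ∧
        (orun ⟨r, code⟩ E.n E.O E.w E.ρ x T).cfg.output = (A.out (A.st E x K).1).map Bin.val ∧
        ((∀ s, A.act s ≠ 2 ∧ A.act s ≠ 3) → (orun ⟨r, code⟩ E.n E.O E.w E.ρ x T).calls = 0)) ∧
    (A.act (A.st E x K).1 ≠ 0 → (orun ⟨r, code⟩ E.n E.O E.w E.ρ x K).cfg.halted = false ∧
        ((∀ s, A.act s ≠ 2 ∧ A.act s ≠ 3) → (orun ⟨r, code⟩ E.n E.O E.w E.ρ x K).calls = 0)) := by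
  obtain ⟨τ, _, M0, M1, k, hM0, hM1⟩ := two_machines A.pt_g0 A.pt_g1
  obtain ⟨kb, hkb⟩ := A.pt_body.pb
  set κ := Nat.card τ + 1 with hκ
  set l := 3 * ((labels M0).length + (labels M1).length) + 12 with hl
  obtain ⟨c, hc⟩ := exists_pow_bound kb k (2 * l + 2 * κ + 62)
    (8 * κ + 200 + Nat.card M0.L + Nat.card M1.L)
  set e := stackNo τ with he
  set r := 20 + κ + 1 with hr
  haveI : NeZero r := ⟨by omega⟩
  set pre : Stm := .seq (inputC κ (e none)) (.seq (simC e M0) (popTo (e none) 15)) with hpre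
  set loop : Stm := .wne 15 3 (roundC e M1) with hloop
  set post : Stm := outC (e none) with hpost
  set code := (Stm.seq pre (.seq loop post)).comp r 0 with hcode
  have hel : ∀ j, 20 + e j < r := fun j => by
    have := (layout τ 0 0).e_lt j
    change e j < κ at this
    omega
  have h0 := hel none
  have okpre : pre.ok r := ⟨ok_input (by omega) h0, ok_sim hel (by omega) M0, by
    simp [popTo, popC, Stm.ok, At.ok]; omega⟩
  have okloop : loop.ok r := ⟨by omega, by omega, ok_round hel M1⟩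
  have okpost : post.ok r := by
    simp [hpost, outC, outB, rdBitB, putC, popC, Stm.ok, At.ok]; omega
  have sub : Sub code 0 ((Stm.seq pre (.seq loop post)).comp r 0) := fun i _ => by simp [hcode]
  have subpre : Sub code 0 (pre.comp r 0) := sub.left
  have subrest : Sub code (0 + pre.len) ((Stm.seq loop post).comp r (0 + pre.len)) := by
    have := sub.right
    rwa [Stm.length_comp] at this
  have subloop : Sub code (0 + pre.len) (loop.comp r (0 + pre.len)) := subrest.left
  have hlen : code.length = 0 + pre.len + (Stm.seq loop post).len := by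
    rw [hcode, Stm.length_comp]; simp [Stm.len]
  refine ⟨r, code, c, fun E x K hK => ?_⟩
  have horun : ∀ T, orun ⟨r, code⟩ E.n E.O E.w E.ρ x T =
      (stp code E)^[T] (cfgOf r 0 (st0 E.w x)) := fun T => rfl
  -- size bookkeeping
  set u : ℕ → ℕ := fun i => sz (A.st E x i).1 + E.w + x.length + 2 with hu
  set N : ℕ → ℕ := fun i => u i ^ kb + 3 * u i * u i with hN
  set t : ℕ → ℕ := fun i => (3 * u i * u i + 2) ^ k with ht
  set D : ℕ → ℕ := fun i => t i * l + 30 * N i + 2 * κ + 100 with hD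
  have hcost : ∀ i, 2 * D i + 2 * (x.length + κ * (N i + t i + 2)) + Nat.card M0.L +
      Nat.card M1.L ≤ A.cost E c x i := fun i => by
    have h1 := hc (u i) (by simp [hu])
    have h2 : x.length ≤ 3 * u i * u i := by simp only [hu]; nlinarith
    refine le_trans ?_ h1
    simp only [hD, hN, ht]
    nlinarith [Nat.zero_le (u i ^ kb), Nat.zero_le ((3 * u i * u i + 2) ^ k),
      Nat.zero_le (l * (u i ^ kb + 3 * u i * u i))]
  have hw1 : 1 ≤ E.w := by
    have h1 := hcost 0
    have h2 := hK 0 (Nat.zero_le _)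
    rcases Nat.eq_zero_or_pos E.w with h | h
    · rw [h] at h2; simp only [hD] at h1; omega
    · exact h
  set C := layout τ E.w x.length with hC
  have hw : 2 * C.H = 2 ^ E.w := by
    change 2 * 2 ^ (E.w - 1) = _
    rw [← pow_succ']; congr 1; omega
  have hroom : ∀ i ≤ K, Room C (N i + t i) := fun i hi => by
    have h1 := hcost i
    have h2 := hK i hi
    change x.length + κ * (N i + t i + 2) ≤ C.H
    omega
  have hlab : Nat.card M0.L < 2 ^ E.w ∧ Nat.card M1.L < 2 ^ E.w := by
    have h1 := hcost 0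
    have h2 := hK 0 (Nat.zero_le _)
    omega
  have hbody : ∀ i, sz (A.body (A.st E x i).1) ≤ u i ^ kb := fun i =>
    (hkb _).trans (Nat.pow_le_pow_left (by simp only [hu]; omega) _)
  have huu : ∀ i, (x.length + 1) * (2 * E.w + 1) + sz (A.st E x i).1 ≤ 3 * u i * u i := fun i => by
    simp only [hu]; nlinarith
  have hl0 : 3 * (labels M0).length + 12 ≤ l := by omega
  have hl1 : 3 * (labels M1).length + 12 ≤ l := by omega
  -- the prologue
  have hstart : Tr E pre (st0 E.w x) (Inv A C (A.st E x 0)) (D 0) := by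
    have h1 := huu 0
    have h2 := sz_words_le E.w x
    have h3 : sz (E.w, x.map fun v => wd (v % 2 ^ E.w)) ≤ 3 * u 0 * u 0 := by
      rw [sz_pair, sz_nat]; nlinarith
    have h4 := (hM0 (E.w, x.map fun v => wd (v % 2 ^ E.w))).mono
      (Nat.pow_le_pow_left (Nat.add_le_add_right h3 2) k)
    refine (Tr.bind (tr_input (C := C) hw none rfl ((hroom 0 (Nat.zero_le _)).mono (by
      simp only [hN]; nlinarith [Nat.zero_le (u 0 ^ kb), Nat.zero_le (t 0)]))) fun σ1 g1 =>
      Tr.bind (tr_sim hw M0 hlab.1 h4 (N := N 0) (hroom 0 (Nat.zero_le _))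
        (st_len (by simp only [hN]; unfold sz at h3; omega)) (by
          have : (fun _ => []) = (PT.st [] : Option τ → List Bool) := by funext j; cases j <;> rfl
          simpa [this] using g1.1)) fun σ2 g2 =>
      (tr_popTo (b := decide (A.act (A.st E x 0).1 = 0)) (l := (A.body (A.st E x 0).1).val)
        (by have := g2.1; rw [A.g0_eq] at this; exact this) 15).imp fun σ3 g3 =>
        Inv.mk g3.1 g3.2.1 (fun i => ?_) ?_ fun _ => ?_).mono ?_
    · rw [g3.2.2.M _ (by omega), g2.2.M _ (by omega), g1.2.1]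
    · rw [g3.2.2.d, g2.2.d, g1.2.2.1]; rfl
    · rw [g3.2.2.q, g2.2.q, g1.2.2.2]
    · have h5 := Nat.mul_le_mul_left (t 0) hl0
      have h6 : C.κ = κ := rfl
      simp only [hD, hN, ht, h6] at h5 ⊢
      nlinarith [Nat.zero_le (u 0 ^ kb)]
  -- the rounds
  have hround : ∀ i ≤ K, A.act (A.st E x i).1 ≠ 0 → ∀ σ', Inv A C (A.st E x i) σ' →
      Tr E (roundC e M1) σ' (Inv A C (A.st E x (i + 1))) (D i - 2) := fun i hi ha σ' h => by
    have h1 := huu i
    have h2 := hbody i
    rw [st_succ]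
    refine (tr_round A hw M1 hlab.2 ha (N := N i) (t := t i) (fun a ha => (hM1 _).mono ?_)
      (by simp only [hN]; nlinarith) (hroom i hi) h).mono ?_
    · refine Nat.pow_le_pow_left (Nat.add_le_add_right ?_ 2) k
      have := Nat.size_le.2 ha
      rw [sz_pair, sz_wd]; nlinarith
    · have h5 := Nat.mul_le_mul_left (t i) hl1
      simp only [hD]; omega
  have hreach : ∀ j ≤ K, (∀ i < j, A.act (A.st E x i).1 ≠ 0) → ∃ T σ', j ≤ T ∧
      T ≤ D 0 + ∑ i ∈ Finset.range j, D i ∧
      (stp code E)^[T] (cfgOf r 0 (st0 E.w x)) = cfgOf r (0 + pre.len) σ' ∧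
      Inv A C (A.st E x j) σ' := by
    intro j
    induction j with
    | zero =>
      intro _ _
      obtain ⟨σ', h1, h2⟩ := hstart
      obtain ⟨T, hT, h3⟩ := h1.rch okpre subpre
      exact ⟨T, σ', Nat.zero_le _, by simpa using hT, h3, h2⟩
    | succ j ih =>
      intro hj ha
      obtain ⟨T, σ', h1, h2, h3, h4⟩ := ih (by omega) fun i hi => ha i (by omega)
      obtain ⟨σ'', h5, h6⟩ := hround j (by omega) (ha j (by omega)) σ' h4
      obtain ⟨T', h7, h8, h9⟩ := loop_iter okloop subloop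
        (by rw [h4.flag, h4.rep.r3]; simp [ha j (by omega)]) h5
      refine ⟨T' + T, σ'', by omega, ?_, by rw [Function.iterate_add_apply, h3, h9], h6⟩
      have : 2 ≤ D j := by simp only [hD]; omega
      rw [Finset.sum_range_succ]; omega
  refine ⟨fun ha hv T hT => ?_, fun ha => ?_⟩
  · have hex : ∃ j, A.act (A.st E x j).1 = 0 := ⟨K, ha⟩
    set j := Nat.find hex with hj
    have hjK : j ≤ K := Nat.find_min' hex ha
    have haj : A.act (A.st E x j).1 = 0 := Nat.find_spec hex
    have hst : A.st E x K = A.st E x j := A.st_stable E haj hjK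
    rw [hst] at hv ⊢
    obtain ⟨T0, σ', -, h2, h3, h4⟩ := hreach j hjK fun i hi => Nat.find_min hex hi
    have hb := hbody j
    have hbe : (A.body (A.st E x j).1).val =
        enc (((A.out (A.st E x j).1).map Bin.val).map wd) := by
      simp [body, haj, Function.comp_def]
    have hbs : sz (((A.out (A.st E x j).1).map Bin.val).map wd) ≤ N j := by
      have : sz (A.body (A.st E x j).1) = sz (((A.out (A.st E x j).1).map Bin.val).map wd) := by
        unfold sz; rw [← hbe]; rfl
      simp only [hN]; omega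
    have hR : Room C (N j) := (hroom j hjK).mono (by omega)
    have hH : ((A.out (A.st E x j).1).map Bin.val).length < C.H := by
      have h1 := hR.lt (i := N j) (j := 0) (by omega) (by have := C.e_lt none; omega)
      have h5 : 1 * N j ≤ C.κ * N j := Nat.mul_le_mul_right _ (by have := C.e_lt none; omega)
      have h6 := length_le_sz (((A.out (A.st E x j).1).map Bin.val).map wd)
      rw [List.length_map] at h6
      omega
    obtain ⟨σ'', h5, h6, h7, h8, h9⟩ : Tr E (.seq loop post) σ' _ _ :=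
      Tr.seq (Tr.wT (by rw [h4.flag, h4.rep.r3]; simp [haj])
        (tr_out hw none hR h4.rep (st_len (by rw [hbe]; exact hbs)) hbe hH (by simpa using hv)))
    obtain ⟨T1, h10, h11⟩ := h5.rch (r := r) ⟨okloop, okpost⟩ subrest
    have h12 : (stp code E)^[T1 + T0 + 1] (cfgOf r 0 (st0 E.w x)) =
        ⟨⟨0 + pre.len + (Stm.seq loop post).len, true, fun j => σ''.R j.val, σ''.M, σ''.d⟩, σ''.q⟩ := by
      rw [Function.iterate_succ_apply', Function.iterate_add_apply, h3, h11, stp_end hlen.le]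
    have hle : T1 + T0 + 1 ≤ T := by
      refine le_trans ?_ hT
      have e1 : ∑ i ∈ Finset.range (j + 1), 2 * D i ≤ ∑ i ∈ Finset.range (K + 1), A.cost E c x i :=
        (Finset.sum_le_sum fun i _ => by have := hcost i; omega).trans
          (Finset.sum_le_sum_of_subset (Finset.range_mono (by omega)))
      rw [← Finset.mul_sum] at e1
      have e2 : D 0 ≤ ∑ i ∈ Finset.range (j + 1), D i :=
        Finset.single_le_sum (f := D) (fun _ _ => Nat.zero_le _) (by simp)
      have e3 : 14 * N j + 11 ≤ D j := by simp only [hD]; omega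
      rw [Finset.sum_range_succ] at e1 e2
      omega
    rw [horun, iter_stable (by rw [h12]) hle, h12]
    refine ⟨rfl, ?_, fun hq => by rw [← h4.q hq, ← h9]⟩
    have r0 : 0 < r := by omega
    have r1 : 1 < r := by omega
    simp only [Cfg.output, Cfg.reg, r0, r1, dif_pos, h6, h7]
    apply List.ext_getElem
    · simp
    · intro i i1 i2
      rw [List.getElem_map, List.getElem_range, h8 i i2, List.getD_eq_getElem _ _ i2]
  · obtain ⟨T0, σ', h1, -, h3, h4⟩ := hreach K le_rfl fun i hi h =>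
      ha (by rw [A.st_stable E h hi.le]; exact h)
    rw [horun]
    refine ⟨?_, fun hq => ?_⟩
    · by_contra hh
      rw [Bool.not_eq_false] at hh
      rw [← iter_stable hh h1, h3] at hh
      simp [cfgOf] at hh
    · obtain ⟨d, rfl⟩ := Nat.exists_eq_add_of_le h1
      have h5 := calls_iter (code := code) (E := E) ((stp code E)^[K] (cfgOf r 0 (st0 E.w x))) d
      rw [← Function.iterate_add_apply, add_comm, h3] at h5
      have : (cfgOf r (0 + pre.len) σ').calls = 0 := h4.q hq
      omega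

/-- **Simulation of a round machine on the oracle word RAM.** -/
theorem sim : ∃ (P : OProgram) (c : ℕ), ∀ (E : Env) (x : List ℕ) (K : ℕ),
    (∀ i ≤ K, A.cost E c x i < 2 ^ E.w) →
    (A.act (A.st E x K).1 = 0 → (∀ v ∈ A.out (A.st E x K).1, v.val < 2 ^ E.w) →
      ∀ T, ∑ i ∈ Finset.range (K + 1), A.cost E c x i ≤ T →
        (orun P E.n E.O E.w E.ρ x T).cfg.halted = true ∧
        (orun P E.n E.O E.w E.ρ x T).cfg.output = (A.out (A.st E x K).1).map Bin.val) ∧
    (A.act (A.st E x K).1 ≠ 0 → (orun P E.n E.O E.w E.ρ x K).cfg.halted = false) := by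
  obtain ⟨r, code, c, h⟩ := A.sim_aux
  exact ⟨⟨r, code⟩, c, fun E x K hK => ⟨fun ha hv T hT =>
    ⟨((h E x K hK).1 ha hv T hT).1, ((h E x K hK).1 ha hv T hT).2.1⟩,
    fun ha => ((h E x K hK).2 ha).1⟩⟩

/-- **Simulation of a round machine without oracle requests on the plain word RAM.** -/
theorem sim_plain (hA : ∀ s, A.act s ≠ 2 ∧ A.act s ≠ 3) :
    ∃ (P : Program) (c : ℕ), ∀ (w : ℕ) (ρ : ℕ → ℕ) (x : List ℕ) (K : ℕ),
    (∀ i ≤ K, A.cost (plainEnv w ρ) c x i < 2 ^ w) →
    (A.act (A.st (plainEnv w ρ) x K).1 = 0 →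
      (∀ v ∈ A.out (A.st (plainEnv w ρ) x K).1, v.val < 2 ^ w) →
      ∀ T, ∑ i ∈ Finset.range (K + 1), A.cost (plainEnv w ρ) c x i ≤ T →
        (run P w ρ x T).halted = true ∧
        (run P w ρ x T).output = (A.out (A.st (plainEnv w ρ) x K).1).map Bin.val) ∧
    (A.act (A.st (plainEnv w ρ) x K).1 ≠ 0 → (run P w ρ x K).halted = false) := by
  obtain ⟨r, code, c, h⟩ := A.sim_aux
  have key : ∀ w ρ x T, (orun ⟨r, code⟩ 0 (fun _ _ => 0) w ρ x T).calls = 0 →
      run (baseProgram ⟨r, code⟩) w ρ x T = (orun ⟨r, code⟩ 0 (fun _ _ => 0) w ρ x T).cfg :=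
    fun w ρ x T h0 => (iter_base (code := code) (E := plainEnv w ρ) _ T (le_of_eq h0)).symm
  refine ⟨baseProgram ⟨r, code⟩, c, fun w ρ x K hK => ⟨fun ha hv T hT => ?_, fun ha => ?_⟩⟩
  · obtain ⟨h1, h2, h3⟩ := (h (plainEnv w ρ) x K hK).1 ha hv T hT
    rw [key w ρ x T (h3 hA)]
    exact ⟨h1, h2⟩
  · obtain ⟨h1, h2⟩ := (h (plainEnv w ρ) x K hK).2 ha
    rw [key w ρ x K (h2 hA)]
    exact h1

end Rnd

end Crest.Agent.ORAM
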