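import Crest.Agent.ORAM.MCA
import Crest.Agent.ORAM.Main
import Crest.Agent.ORAM.EL2
import Crest.Prelude.Def_Polymatroid

/-!
Row 302: Monte-Carlo counting on the oracle word RAM from an oracle-polynomial-time estimator.
-/

set_option autoImplicit false

namespace Crest.Agent.ORAM

open Crest.Agent.PT Crest.Agent.QC Crest.Agent.R317 Crest.Agent.R300U Crest.Agent.R302
open Crest.Agent.R287 Crest.OracleRAM Crest.Polymatroid

theorem length_proto {α β : Type} (O : Orc) (ctl : Tab × α → Q ⊕ β) (x : α) (k : ℕ) :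
    (proto O ctl x k).length ≤ k := by
  induction k with
  | zero => simp [proto]
  | succ k ih =>
    simp only [proto]
    split
    · simp only [List.length_cons]; omega
    · omega

theorem sz_rbits (ρ : ℕ → ℕ) (j : ℕ) : sz (rbits ρ j) ≤ j * 3 := by
  have := sz_list_le (rbits ρ j) 1 (fun x _ => by simp)
  simpa [rbits] using this

theorem size_valR_rbits (ρ : ℕ → ℕ) (j : ℕ) : (valR (rbits ρ j)).size ≤ j := by
  rw [Nat.size_le]
  have := valR_lt (rbits ρ j)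
  simpa [rbits] using this

/-- The abstract run: number of rounds, state sizes and output. -/
theorem mach_run {c : CIn → ℕ} {F : Orc → CIn × Bin → ℚ} (hc : PT c) (hF : OPT F) :
    ∃ (A : Rnd MS) (e : ℕ), 1 ≤ e ∧ ∀ (E : Env) (x : List ℕ) (R a : ℕ),
      hdrOf (E.w, x.map fun v => ⟨v % 2 ^ E.w⟩) = (E.w, ⟨E.n⟩, ⟨R⟩, ⟨a⟩) →
      (∀ b S, E.O b S ≤ R + 1) → R + 1 < 2 ^ E.w →
      ∃ K, c (E.n, ⟨R⟩, a) ≤ K ∧ K + 1 ≤ (sz ((E.n, ⟨R⟩, a) : CIn) + 2) ^ e ∧
        (∀ i ≤ K, sz (A.st E x i).1 + 8 ≤ 4 * E.w + (sz ((E.n, ⟨R⟩, a) : CIn) + 2) ^ e) ∧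
        A.act (A.st E x K).1 = 0 ∧
        A.out (A.st E x K).1 =
          ratW E.w (F (orc E.O) ((E.n, ⟨R⟩, a), ⟨valR (rbits E.ρ (c (E.n, ⟨R⟩, a)))⟩)) ∧
        sz (F (orc E.O) ((E.n, ⟨R⟩, a), ⟨valR (rbits E.ρ (c (E.n, ⟨R⟩, a)))⟩)) ≤
          (sz ((E.n, ⟨R⟩, a) : CIn) + 2) ^ e := by
  obtain ⟨ctl, k, hctl, h1, h2⟩ := hF.controller'
  obtain ⟨B, hB, hB'⟩ := hF.pb
  obtain ⟨l, hl⟩ := hB.exists_mono
  have p1 : PB (fun y : CIn => 2 * sz y + c y + 1 + 2) :=
    ((((PB.const 2).mul PB.size).add hc.pbNat).add (PB.const 1)).add (PB.const 2)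
  have p2 : PB (fun y : CIn => (2 * sz y + c y + 1 + 2) ^ k) := p1.pow k
  have p3 : PB (fun y : CIn => 10 * sz y + 6 * c y + 30 + (2 * sz y + c y + 1 + 2) ^ k +
      (2 * sz y + c y + 1 + 2) ^ k * (2 * (2 * (2 * sz y + c y + 1 + 2) ^ k + sz y + 2) + 1) +
      (2 * sz y + c y + 1 + 2) ^ l) :=
    (((((((PB.const 10).mul PB.size).add ((PB.const 6).mul hc.pbNat)).add (PB.const 30)).add p2).add
      (p2.mul (((PB.const 2).mul (((((PB.const 2).mul p2).add PB.size)).add (PB.const 2))).add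
        (PB.const 1)))).add (p1.pow l))
  obtain ⟨e, he⟩ := p3
  refine ⟨mach hc hctl, e + 1, by omega, fun E x R a h0 hO hR => ?_⟩
  set y : CIn := (E.n, ⟨R⟩, a) with hy
  set u : Bin := ⟨valR (rbits E.ρ (c y))⟩ with hu
  set Kq := (2 * sz y + c y + 1 + 2) ^ k with hKq
  have he' : (sz y + 2) ^ e ≤ (sz y + 2) ^ (e + 1) := Nat.pow_le_pow_right (by omega) (by omega)
  have hey := (he y).trans he'
  simp only [← hKq] at hey
  have hsy : sz y = 2 * E.n + (2 * R.size + a + 1) + 1 := by simp [hy]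
  have hsu : sz (y, u) ≤ 2 * sz y + c y + 1 := by
    have := size_valR_rbits E.ρ (c y)
    simp only [sz_pair, hu, sz_bin] at this ⊢
    omega
  have hKq' : (sz (y, u) + 2) ^ k ≤ Kq := Nat.pow_le_pow_left (by omega) k
  have hO' : ∀ b S, E.O b S < 2 ^ E.w := fun b S => (hO b S).trans_lt hR
  have hn : E.n.size ≤ E.n := Nat.size_le.2 Nat.lt_two_pow_self
  have ha : a.size ≤ a := Nat.size_le.2 Nat.lt_two_pow_self
  have hfin := st_phase3 hc hctl E x R a h0 hO' Kq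
  rw [← hy, ← hu] at hfin
  have hreq : req ctl ((mach hc hctl).st E x (E.n + a + c y + Kq)).1 = .inr (F (orc E.O) (y, u)) := by
    rw [hfin, req, xin_eq]
    exact h1 _ _ _ hKq'
  refine ⟨E.n + a + c y + Kq, by omega, by omega, fun i hi => ?_, ?_, ?_, ?_⟩
  · have hz : 0 ≤ Kq * (2 * (2 * Kq + sz y + 2) + 1) := Nat.zero_le _
    rcases le_or_gt i (E.n + a) with h | h
    · rw [st_phase1 hc hctl E x R a h0 i h]
      simp only [sz_pair, sz_nat, sz_bin, sz_nil]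
      omega
    rcases le_or_gt i (E.n + a + c y) with h' | h'
    · obtain ⟨j, rfl⟩ : ∃ j, i = E.n + a + j := ⟨i - (E.n + a), by omega⟩
      rw [st_phase2 hc hctl E x R a h0 j (by rw [← hy]; omega)]
      have := sz_rbits E.ρ j
      simp only [sz_pair, sz_nat, sz_bin, sz_nil]
      omega
    · obtain ⟨j, rfl⟩ : ∃ j, i = E.n + a + c y + j := ⟨i - (E.n + a + c y), by omega⟩
      have h3 := st_phase3 hc hctl E x R a h0 hO' j
      rw [← hy, ← hu] at h3
      rw [h3]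
      have h4 := sz_rbits E.ρ (c y)
      have h5 : sz (proto (orc E.O) ctl (y, u) j) ≤ Kq * (2 * (2 * Kq + sz y + 2) + 1) := by
        refine (sz_list_le _ (2 * Kq + sz y + 2) fun t ht => ?_).trans
          (Nat.mul_le_mul_right _ ((length_proto _ _ _ _).trans (by omega)))
        obtain ⟨h6, h7⟩ := h2 _ _ _ t ht
        obtain ⟨q, v⟩ := t
        have h8 : v.val ≤ R + 1 := by rw [show v.val = _ from h6]; exact hO _ _
        have h9 : (R + 1).size ≤ R.size + 1 := by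
          rw [Nat.size_le, pow_succ]
          have := Nat.lt_size_self R
          omega
        have h10 := Nat.size_le_size h8
        have h11 : sz q ≤ Kq := h7.trans hKq'
        rw [sz_pair, sz_bin]
        omega
      simp only [sz_pair, sz_nat, sz_bin]
      omega
  · show mact c ctl _ = 0
    rw [mact, hreq, hfin, xin_eq, ← hy]
    simp [rbits]
  · show ratW _ (getR 0 (req ctl _)) = _
    rw [hreq, hfin]
    rfl
  · have := (hB' (orc E.O) (y, u)).trans (hl _ _ hsu)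
    omega

theorem exists_word (cc e : ℕ) : ∃ c₀, 1 ≤ c₀ ∧ ∀ L G, 1 ≤ L → G ≤ 2 ^ (e * L) →
    (5 * (c₀ * L) + G) ^ cc < 2 ^ (c₀ * L) ∧ G < 2 ^ (c₀ * L) := by
  set s := 5 * ((cc + 1) * (e + 2) + 1) + 10 * (cc + 1) + 1 with hs
  refine ⟨(cc + 1) * (e + 2 * s + 2) + 1, by omega, fun L G hL hG => ?_⟩
  set c₀ := (cc + 1) * (e + 2 * s + 2) + 1 with hc₀
  have h1 : 5 * c₀ ≤ 2 ^ (2 * s) := by
    have h2 : s < 2 ^ s := Nat.lt_two_pow_self
    have h3 : 5 * c₀ ≤ s * s := by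
      have : 5 * c₀ = 5 * ((cc + 1) * (e + 2) + 1) + 10 * (cc + 1) * s := by rw [hc₀]; ring
      rw [this]
      have h4 : s * s = (5 * ((cc + 1) * (e + 2) + 1) + 1) * s + 10 * (cc + 1) * s := by
        conv_lhs => rw [show s * s = s * s from rfl]
        nth_rewrite 1 [hs]
        ring
      rw [h4]
      have h5 : 1 ≤ s := by omega
      have h6 := Nat.mul_le_mul_left (5 * ((cc + 1) * (e + 2) + 1) + 1) h5
      omega
    rw [two_mul, pow_add]
    exact h3.trans (Nat.mul_le_mul h2.le h2.le)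
  have h2 : 5 * (c₀ * L) ≤ 2 ^ ((e + 2 * s + 1) * L) := by
    have h3 : L ≤ 2 ^ L := Nat.lt_two_pow_self.le
    calc 5 * (c₀ * L) = 5 * c₀ * L := by ring
      _ ≤ 2 ^ (2 * s) * 2 ^ L := Nat.mul_le_mul h1 h3
      _ = 2 ^ (2 * s + L) := by rw [pow_add]
      _ ≤ 2 ^ ((e + 2 * s + 1) * L) := Nat.pow_le_pow_right (by norm_num) (by nlinarith)
  have h3 : G ≤ 2 ^ ((e + 2 * s + 1) * L) :=
    hG.trans (Nat.pow_le_pow_right (by norm_num) (by nlinarith))
  have h4 : 5 * (c₀ * L) + G ≤ 2 ^ ((e + 2 * s + 2) * L) := by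
    calc 5 * (c₀ * L) + G ≤ 2 ^ ((e + 2 * s + 1) * L + 1) := by rw [pow_succ]; omega
      _ ≤ 2 ^ ((e + 2 * s + 2) * L) := Nat.pow_le_pow_right (by norm_num) (by nlinarith)
  constructor
  · calc (5 * (c₀ * L) + G) ^ cc ≤ (2 ^ ((e + 2 * s + 2) * L)) ^ cc := Nat.pow_le_pow_left h4 _
      _ = 2 ^ ((e + 2 * s + 2) * L * cc) := by rw [← pow_mul]
      _ < 2 ^ (c₀ * L) := Nat.pow_lt_pow_right (by norm_num) (by rw [hc₀]; nlinarith)
  · refine h3.trans_lt (Nat.pow_lt_pow_right (by norm_num) ?_)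
    have h5 : e + 2 * s + 1 < c₀ := by rw [hc₀]; nlinarith
    exact Nat.mul_lt_mul_of_pos_right h5 (by omega)

/-- The accuracy parameter. -/
def acc (ε δ : ℚ) : ℕ := accW ε.num.natAbs ε.den δ.den

theorem inv_eq {ε : ℚ} (hε : 0 < ε) : ε⁻¹ = (ε.den : ℚ) / (ε.num.natAbs : ℚ) := by
  have h1 : ((ε.num.natAbs : ℕ) : ℚ) = (ε.num : ℚ) := by
    rw [← Int.cast_natCast, Int.natAbs_of_nonneg (Rat.num_nonneg.2 hε.le)]
  rw [h1]
  conv_lhs => rw [← Rat.num_div_den ε]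
  rw [inv_div]

theorem acc_le {ε δ : ℚ} (hε : 0 < ε) : acc ε δ ≤ ⌈ε⁻¹⌉₊ + 1 + Nat.clog 2 (δ.den + 2) := by
  have h1 : ε.den / ε.num.natAbs ≤ ⌈ε⁻¹⌉₊ := by
    have h2 : ((ε.den / ε.num.natAbs : ℕ) : ℚ) ≤ ε⁻¹ := by rw [inv_eq hε]; exact Nat.cast_div_le
    exact_mod_cast h2.trans (Nat.le_ceil _)
  have h2 : δ.den.size ≤ Nat.clog 2 (δ.den + 2) :=
    Nat.size_le.2 (lt_of_lt_of_le (by omega) (Nat.le_pow_clog (by norm_num) _))
  unfold acc accW
  omega

theorem ceil_le {ε : ℚ} (hε : 0 < ε) : ⌈ε⁻¹⌉₊ ≤ ε.den := by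
  rw [Nat.ceil_le, inv_eq hε]
  have : 1 ≤ ε.num.natAbs := Int.natAbs_pos.2 (Rat.num_pos.2 hε).ne'
  exact div_le_self (by positivity) (by exact_mod_cast this)

theorem inv_acc_le {ε δ : ℚ} (hε : 0 < ε) : 1 / (acc ε δ : ℝ) ≤ ε := by
  have h0 : 0 < ε.num.natAbs := Int.natAbs_pos.2 (Rat.num_pos.2 hε).ne'
  have h1 : ε⁻¹ ≤ (acc ε δ : ℚ) := by
    rw [inv_eq hε, div_le_iff₀ (by exact_mod_cast h0)]
    have h2 : ε.den ≤ acc ε δ * ε.num.natAbs := by
      have h3 := Nat.lt_div_mul_add (a := ε.den) h0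
      have h4 : ε.den / ε.num.natAbs + 1 ≤ acc ε δ := by unfold acc accW; omega
      nlinarith [Nat.mul_le_mul_right ε.num.natAbs h4]
    exact_mod_cast h2
  have h2 : ((ε : ℝ))⁻¹ ≤ (acc ε δ : ℝ) := by exact_mod_cast h1
  have h3 : (0 : ℝ) < ε := by exact_mod_cast hε
  rw [one_div]
  exact inv_le_of_inv_le₀ h3 h2

theorem pow_acc_le {ε δ : ℚ} (hδ : 0 < δ) : (2 : ℝ)⁻¹ ^ acc ε δ ≤ δ := by
  have h1 : δ.den ≤ 2 ^ acc ε δ :=
    (Nat.lt_size_self _).le.trans (Nat.pow_le_pow_right (by norm_num) (Nat.le_add_left _ _))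
  have h2 : ((δ : ℝ))⁻¹ ≤ 2 ^ acc ε δ := by
    have h3 : δ⁻¹ ≤ (δ.den : ℚ) := (Nat.le_ceil _).trans (by exact_mod_cast ceil_le hδ)
    have h4 : ((δ : ℝ))⁻¹ ≤ (δ.den : ℝ) := by exact_mod_cast h3
    exact h4.trans (by exact_mod_cast h1)
  have h3 : (0 : ℝ) < δ := by exact_mod_cast hδ
  rw [inv_pow]
  exact inv_le_of_inv_le₀ h3 h2

theorem clog_le_self (m : ℕ) : Nat.clog 2 m ≤ m :=
  (Nat.clog_le_iff_le_pow (by norm_num)).2 Nat.lt_two_pow_self.le

/-- The concrete run on the oracle word RAM. -/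
theorem mc_run {c : CIn → ℕ} {F : Orc → CIn × Bin → ℚ} (hc : PT c) (hF : OPT F) :
    ∃ (P : OProgram) (c₀ C d : ℕ), ∀ (n R : ℕ) (O : Bool → Finset (Fin n) → ℕ) (ε δ : ℚ),
      (∀ b S, O b S ≤ R + 1) → 0 < ε → ∀ w T,
      w = c₀ * Nat.clog 2 (n + R + ε.num.natAbs + ε.den + δ.num.natAbs + δ.den + 2) →
      T = C * (sizeParam n R ε δ + 1) ^ d →
      1 ≤ w ∧ c (n, ⟨R⟩, acc ε δ) ≤ T ∧ ∀ ρ : ℕ → ℕ,
        (orun P n O w ρ (countInput n R ε δ) T).cfg.halted = true ∧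
        (orun P n O w ρ (countInput n R ε δ) T).cfg.output =
          (ratW w (F (orc O) ((n, ⟨R⟩, acc ε δ),
            ⟨valR (rbits ρ (c (n, ⟨R⟩, acc ε δ)))⟩))).map Bin.val := by
  obtain ⟨A, e, he1, hA⟩ := mach_run hc hF
  obtain ⟨P, cc, hP⟩ := A.sim
  obtain ⟨c₀, hc₀, hw⟩ := exists_word cc (6 * e)
  refine ⟨P, c₀, (15 * c₀ + 1) ^ cc * 7 ^ (e * (cc + 1)), e * (cc + 1),
    fun n R O ε δ hO hε w T hwd hT => ?_⟩
  set N := n + R + ε.num.natAbs + ε.den + δ.num.natAbs + δ.den + 2 with hN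
  set L := Nat.clog 2 N with hL
  set S := sizeParam n R ε δ with hS
  set y : CIn := (n, ⟨R⟩, acc ε δ) with hy
  have hL1 : 1 ≤ L := Nat.clog_pos (by norm_num) (by omega)
  have hNL : N ≤ 2 ^ L := Nat.le_pow_clog (by norm_num) _
  have hw1 : L ≤ w := by rw [hwd]; exact Nat.le_mul_of_pos_left _ hc₀
  have hNw : N ≤ 2 ^ w := hNL.trans (Nat.pow_le_pow_right (by norm_num) hw1)
  have hRs : R.size ≤ Nat.clog 2 (R + 2) :=
    Nat.size_le.2 (lt_of_lt_of_le (by omega) (Nat.le_pow_clog (by norm_num) _))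
  have hsy : sz y + 2 ≤ 2 * S + 7 := by
    have h1 : sz y = 2 * n + (2 * R.size + acc ε δ + 1) + 1 := by simp [hy]
    have h2 := acc_le (δ := δ) hε
    simp only [hS, sizeParam]
    omega
  have hSN : S ≤ 7 * N := by
    have h1 := clog_le_self (R + 2)
    have h2 := clog_le_self (ε.num.natAbs + 2)
    have h3 := clog_le_self (ε.den + 2)
    have h4 := clog_le_self (δ.num.natAbs + 2)
    have h5 := clog_le_self (δ.den + 2)
    have h6 := ceil_le hε
    simp only [hS, sizeParam]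
    omega
  have hLS : L ≤ S + 3 := by
    rw [hL, Nat.clog_le_iff_le_pow (by norm_num)]
    have key : ∀ m, Nat.clog 2 m ≤ S → m ≤ 2 ^ S := fun m hm =>
      (Nat.le_pow_clog (by norm_num) m).trans (Nat.pow_le_pow_right (by norm_num) hm)
    have h0 : n ≤ 2 ^ S := key n ((clog_le_self n).trans (by simp only [hS, sizeParam]; omega))
    have h1 := key (R + 2) (by simp only [hS, sizeParam]; omega)
    have h2 := key (ε.num.natAbs + 2) (by simp only [hS, sizeParam]; omega)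
    have h3 := key (ε.den + 2) (by simp only [hS, sizeParam]; omega)
    have h4 := key (δ.num.natAbs + 2) (by simp only [hS, sizeParam]; omega)
    have h5 := key (δ.den + 2) (by simp only [hS, sizeParam]; omega)
    rw [pow_add]
    omega
  set G := (sz y + 2) ^ e with hG
  have hG1 : G ≤ 2 ^ (6 * e * L) := by
    have h1 : sz y + 2 ≤ 2 ^ (6 * L) := by
      have h2 : 2 ^ (L + 5) ≤ 2 ^ (6 * L) := Nat.pow_le_pow_right (by norm_num) (by omega)
      rw [pow_add] at h2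
      omega
    calc G ≤ (2 ^ (6 * L)) ^ e := Nat.pow_le_pow_left h1 _
      _ = 2 ^ (6 * e * L) := by rw [← pow_mul]; congr 1; ring
  obtain ⟨hw2, hw3⟩ := hw L G hL1 hG1
  rw [← hwd] at hw2 hw3
  have hG2 : G ≤ (7 * (S + 1)) ^ e := Nat.pow_le_pow_left (by omega) _
  have hT2 : G * (5 * w + G) ^ cc ≤ T := by
    have h1 : S + 1 ≤ (7 * (S + 1)) ^ e :=
      le_trans (by omega) (Nat.le_self_pow (n := e) (by omega) (7 * (S + 1)))
    have h2 : 5 * w + G ≤ (15 * c₀ + 1) * (7 * (S + 1)) ^ e := by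
      have h3 : w ≤ c₀ * (3 * (7 * (S + 1)) ^ e) := by
        rw [hwd]; exact Nat.mul_le_mul_left _ (by omega)
      nlinarith
    calc G * (5 * w + G) ^ cc ≤ (7 * (S + 1)) ^ e * ((15 * c₀ + 1) * (7 * (S + 1)) ^ e) ^ cc :=
          Nat.mul_le_mul hG2 (Nat.pow_le_pow_left h2 _)
      _ = T := by
          rw [hT, mul_pow (15 * c₀ + 1), ← pow_mul, mul_assoc, ← mul_pow 7,
            show e * (cc + 1) = e + e * cc by ring, pow_add]
          ring
  have hh : ∀ ρ, hdrOf ((⟨n, O, w, ρ⟩ : Env).w, (countInput n R ε δ).map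
      fun v => ⟨v % 2 ^ (⟨n, O, w, ρ⟩ : Env).w⟩) = (w, ⟨n⟩, ⟨R⟩, ⟨acc ε δ⟩) := by
    intro ρ
    simp only [hdrOf, countInput, List.map_cons, List.map_nil, List.getD_cons_zero,
      List.getD_cons_succ, acc]
    rw [Nat.mod_eq_of_lt (show n < 2 ^ w by omega), Nat.mod_eq_of_lt (show R < 2 ^ w by omega),
      Nat.mod_eq_of_lt (show ε.num.natAbs < 2 ^ w by omega),
      Nat.mod_eq_of_lt (show ε.den < 2 ^ w by omega),
      Nat.mod_eq_of_lt (show δ.den < 2 ^ w by omega)]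
  have hpos : 1 ≤ (5 * w + G) ^ cc := Nat.one_le_pow _ _ (by omega)
  refine ⟨by omega, ?_, fun ρ => ?_⟩
  · obtain ⟨K, h1, h2, -⟩ := hA ⟨n, O, w, fun _ => 0⟩ _ R _ (hh _) hO (show R + 1 < 2 ^ w by omega)
    have h3 : G * 1 ≤ G * (5 * w + G) ^ cc := Nat.mul_le_mul_left _ hpos
    change c y ≤ K at h1
    change K + 1 ≤ G at h2
    omega
  · obtain ⟨K, -, h2, h3, h4, h5, h6⟩ :=
      hA ⟨n, O, w, ρ⟩ _ R _ (hh _) hO (show R + 1 < 2 ^ w by omega)
    change K + 1 ≤ G at h2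
    have hcost : ∀ i ≤ K, A.cost ⟨n, O, w, ρ⟩ cc (countInput n R ε δ) i ≤ (5 * w + G) ^ cc := by
      intro i hi
      have h7 := h3 i hi
      change _ ≤ 4 * w + G at h7
      refine Nat.pow_le_pow_left ?_ _
      change _ + w + 6 + 2 ≤ _
      omega
    have h7 := (hP ⟨n, O, w, ρ⟩ (countInput n R ε δ) K
      (fun i hi => (hcost i hi).trans_lt hw2)).1 h4
      (by rw [h5]; exact ratW_lt (lt_of_le_of_lt h6 hw3)) T (by
        refine le_trans ?_ hT2
        refine (Finset.sum_le_card_nsmul _ _ _ fun i hi =>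
          hcost i (by simpa [Nat.lt_succ_iff] using hi)).trans ?_
        rw [Finset.card_range, smul_eq_mul]
        exact Nat.mul_le_mul_right _ h2)
    rw [h5] at h7
    exact h7

open Classical in
/-- Probabilities over word tables of events that depend on the number formed by the first `k`
parities. -/
theorem prob_rbits {w T k : ℕ} (hw : 1 ≤ w) (hk : k ≤ T) (G : ℕ → Prop) :
    Crest.FinProb.uniformProb
      {tab : Fin T → Fin (2 ^ w) | G (valR (rbits (Crest.WordRAM.streamOf tab) k))} =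
      R309.Pb k G := by
  have h1 : ∀ tab : Fin T → Fin (2 ^ w), rbits (Crest.WordRAM.streamOf tab) k =
      (List.ofFn fun i => decide ((tab i : ℕ) % 2 = 1)).take k := by
    intro tab
    apply List.ext_getElem
    · simp [rbits, hk]
    · intro i i1 i2
      have hi : i < k := by simpa [rbits] using i1
      simp [rbits, mkL, Crest.WordRAM.streamOf, show i < T by omega]
  simp only [h1]
  haveI : Nonempty (Fin (2 ^ w)) := ⟨⟨0, by positivity⟩⟩
  rw [ELx.uniformProb_eq_EL (fun v : Fin (2 ^ w) => decide ((v : ℕ) % 2 = 1))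
    (ELx.balanced_word hw) T (fun l => G (valR (l.take k)))]
  obtain ⟨r, rfl⟩ := Nat.exists_eq_add_of_le hk
  rw [ELx.EL_append, R309.Pb, R309.Av, ← ELx.EL_valR k (fun u => if G u then 1 else 0)]
  refine ELx.EL_congr fun l hl => ?_
  rw [← ELx.EL_const r (if G (valR l) then 1 else 0)]
  refine ELx.EL_congr fun l' _ => ?_
  rw [List.take_left' hl]

theorem uniformProb_mono {Ω : Type} [Fintype Ω] {A B : Set Ω} (h : A ⊆ B) :
    Crest.FinProb.uniformProb A ≤ Crest.FinProb.uniformProb B := by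
  classical
  unfold Crest.FinProb.uniformProb
  refine div_le_div_of_nonneg_right ?_ (Nat.cast_nonneg _)
  exact_mod_cast Finset.card_le_card fun x hx => by
    simp only [Finset.mem_filter, Finset.mem_univ, true_and] at hx ⊢
    exact h hx

/-- **Monte-Carlo counting on the oracle word RAM.** -/
theorem mc {c : CIn → ℕ} {F : Orc → CIn × Bin → ℚ} (hc : PT c) (hF : OPT F) :
    ∃ (P : OProgram) (c₀ C d : ℕ), ∀ (n R : ℕ) (O : Bool → Finset (Fin n) → ℕ) (N : ℕ) (ε δ : ℚ),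
      (∀ b S, O b S ≤ R + 1) → GoodAt c F n R O N → 0 < ε → 0 < δ → ∀ w T,
      w = c₀ * Nat.clog 2 (n + R + ε.num.natAbs + ε.den + δ.num.natAbs + δ.den + 2) →
      T = C * (sizeParam n R ε δ + 1) ^ d →
      (∀ ρ : ℕ → ℕ, (orun P n O w ρ (countInput n R ε δ) T).cfg.halted = true) ∧
      (∀ ρ : ℕ → ℕ, ∃ z : ℚ, 0 ≤ z ∧
        decodeRat w (orun P n O w ρ (countInput n R ε δ) T).cfg.output = some z) ∧
      (N = 0 → ∀ ρ : ℕ → ℕ,
        decodeRat w (orun P n O w ρ (countInput n R ε δ) T).cfg.output = some 0) ∧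
      1 - (δ : ℝ) ≤ oprobAfter P n O w (countInput n R ε δ) T
        (fun s => ∃ z : ℚ, decodeRat w s.cfg.output = some z ∧
          (1 - ε) * N ≤ z ∧ z ≤ (1 + ε) * N) := by
  obtain ⟨P, c₀, C, d, h⟩ := mc_run hc hF
  refine ⟨P, c₀, C, d, fun n R O N ε δ hO hG hε hδ w T hw hT => ?_⟩
  obtain ⟨hw1, hcT, hrun⟩ := h n R O ε δ hO hε w T hw hT
  obtain ⟨g1, g2, g3⟩ := hG (acc ε δ)
    ((Nat.le_add_left 1 _).trans (Nat.le_add_right _ δ.den.size))
  set y : CIn := (n, ⟨R⟩, acc ε δ) with hy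
  have hlt : ∀ ρ, valR (rbits ρ (c y)) < 2 ^ c y := fun ρ => by
    simpa [rbits] using valR_lt (rbits ρ (c y))
  have hdec : ∀ ρ, decodeRat w (orun P n O w ρ (countInput n R ε δ) T).cfg.output =
      some (F (orc O) (y, ⟨valR (rbits ρ (c y))⟩)) := fun ρ => by
    rw [(hrun ρ).2]; exact decodeRat_ratW hw1 (g1 _ (hlt ρ))
  refine ⟨fun ρ => (hrun ρ).1, fun ρ => ⟨_, g1 _ (hlt ρ), hdec ρ⟩,
    fun h0 ρ => by rw [hdec, g2 h0 _ (hlt ρ)], ?_⟩
  have h1 := pow_acc_le (ε := ε) hδ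
  have h2 := inv_acc_le (δ := δ) hε
  refine le_trans (by linarith) (g3.trans ?_)
  rw [← prob_rbits hw1 hcT]
  refine uniformProb_mono fun tab ht => ?_
  obtain ⟨t1, t2⟩ := ht
  have hN : (0 : ℝ) ≤ N := Nat.cast_nonneg _
  refine ⟨_, hdec _, ?_, ?_⟩
  · have : ((1 - (ε : ℝ)) * N) ≤ _ := le_trans (mul_le_mul_of_nonneg_right (by linarith) hN) t1
    exact_mod_cast this
  · have : _ ≤ ((1 + (ε : ℝ)) * N) := le_trans t2 (mul_le_mul_of_nonneg_right (by linarith) hN)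
    exact_mod_cast this

/-- The statement for polymatroids from a good estimator. -/
theorem s0461_of {c : CIn → ℕ} {F : Orc → CIn × Bin → ℚ} (hc : PT c) (hF : OPT F)
    (H : ∀ (n R : ℕ) (r₁ r₂ : Finset (Fin n) → ℕ), IsPolymatroidRank r₁ → IsPolymatroidRank r₂ →
      r₁ Finset.univ = R → r₂ Finset.univ = R →
      GoodAt c F n R (fun b => if b then r₂ else r₁) (numCommonIntBases R r₁ r₂)) :
    ∃ (P : Crest.OracleRAM.OProgram) (c₀ C d : ℕ),
      ∀ (n R : ℕ) (r₁ r₂ : Finset (Fin n) → ℕ) (ε δ : ℚ),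
        IsPolymatroidRank r₁ → IsPolymatroidRank r₂ → r₁ Finset.univ = R → r₂ Finset.univ = R →
        0 < ε → ε < 1 → 0 < δ → δ < 1 →
        (∀ ρ : ℕ → ℕ, (Crest.OracleRAM.orun P n (fun b => if b then r₂ else r₁)
            (c₀ * Nat.clog 2 (n + R + ε.num.natAbs + ε.den + δ.num.natAbs + δ.den + 2)) ρ
            (countInput n R ε δ) (C * (sizeParam n R ε δ + 1) ^ d)).cfg.halted = true) ∧
        (∀ ρ : ℕ → ℕ, ∃ z : ℚ, 0 ≤ z ∧
          Crest.OracleRAM.decodeRat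
              (c₀ * Nat.clog 2 (n + R + ε.num.natAbs + ε.den + δ.num.natAbs + δ.den + 2))
              (Crest.OracleRAM.orun P n (fun b => if b then r₂ else r₁)
                (c₀ * Nat.clog 2 (n + R + ε.num.natAbs + ε.den + δ.num.natAbs + δ.den + 2)) ρ
                (countInput n R ε δ) (C * (sizeParam n R ε δ + 1) ^ d)).cfg.output = some z) ∧
        (numCommonIntBases R r₁ r₂ = 0 → ∀ ρ : ℕ → ℕ,
          Crest.OracleRAM.decodeRat
              (c₀ * Nat.clog 2 (n + R + ε.num.natAbs + ε.den + δ.num.natAbs + δ.den + 2))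
              (Crest.OracleRAM.orun P n (fun b => if b then r₂ else r₁)
                (c₀ * Nat.clog 2 (n + R + ε.num.natAbs + ε.den + δ.num.natAbs + δ.den + 2)) ρ
                (countInput n R ε δ) (C * (sizeParam n R ε δ + 1) ^ d)).cfg.output = some 0) ∧
        1 - (δ : ℝ) ≤ Crest.OracleRAM.oprobAfter P n (fun b => if b then r₂ else r₁)
            (c₀ * Nat.clog 2 (n + R + ε.num.natAbs + ε.den + δ.num.natAbs + δ.den + 2))
            (countInput n R ε δ) (C * (sizeParam n R ε δ + 1) ^ d)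
            (fun c => ∃ z : ℚ, Crest.OracleRAM.decodeRat
                (c₀ * Nat.clog 2 (n + R + ε.num.natAbs + ε.den + δ.num.natAbs + δ.den + 2))
                c.cfg.output = some z ∧
              (1 - ε) * numCommonIntBases R r₁ r₂ ≤ z ∧
              z ≤ (1 + ε) * numCommonIntBases R r₁ r₂) := by
  obtain ⟨P, c₀, C, d, h⟩ := mc hc hF
  refine ⟨P, c₀, C, d, fun n R r₁ r₂ ε δ h1 h2 h3 h4 hε _ hδ _ =>
    h n R _ _ ε δ (fun b S => ?_) (H n R r₁ r₂ h1 h2 h3 h4) hε hδ _ _ rfl rfl⟩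
  have e1 := h1.2.1 S _ (Finset.subset_univ _)
  have e2 := h2.2.1 S _ (Finset.subset_univ _)
  cases b
  · simp only [Bool.false_eq_true, if_false]; omega
  · simp only [if_true]; omega

/-- The statement for matroids from a good estimator. -/
theorem s0462_of {c : CIn → ℕ} {F : Orc → CIn × Bin → ℚ} (hc : PT c) (hF : OPT F)
    (H : ∀ (n r : ℕ) (M₁ M₂ : Matroid (Fin n)), M₁.E = Set.univ → M₂.E = Set.univ →
      M₁.eRank = r → M₂.eRank = r →
      GoodAt c F n r (indepOracle M₁ M₂) (numCommonBases M₁ M₂)) :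
    ∃ (P : Crest.OracleRAM.OProgram) (c₀ C d : ℕ),
      ∀ (n r : ℕ) (M₁ M₂ : Matroid (Fin n)) (ε δ : ℚ),
        M₁.E = Set.univ → M₂.E = Set.univ → M₁.eRank = r → M₂.eRank = r →
        0 < ε → ε < 1 → 0 < δ → δ < 1 →
        (∀ ρ : ℕ → ℕ, (Crest.OracleRAM.orun P n (indepOracle M₁ M₂)
            (c₀ * Nat.clog 2 (n + r + ε.num.natAbs + ε.den + δ.num.natAbs + δ.den + 2)) ρ
            (countInput n r ε δ) (C * (sizeParam n r ε δ + 1) ^ d)).cfg.halted = true) ∧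
        (∀ ρ : ℕ → ℕ, ∃ z : ℚ, 0 ≤ z ∧
          Crest.OracleRAM.decodeRat
              (c₀ * Nat.clog 2 (n + r + ε.num.natAbs + ε.den + δ.num.natAbs + δ.den + 2))
              (Crest.OracleRAM.orun P n (indepOracle M₁ M₂)
                (c₀ * Nat.clog 2 (n + r + ε.num.natAbs + ε.den + δ.num.natAbs + δ.den + 2)) ρ
                (countInput n r ε δ) (C * (sizeParam n r ε δ + 1) ^ d)).cfg.output = some z) ∧
        (numCommonBases M₁ M₂ = 0 → ∀ ρ : ℕ → ℕ,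
          Crest.OracleRAM.decodeRat
              (c₀ * Nat.clog 2 (n + r + ε.num.natAbs + ε.den + δ.num.natAbs + δ.den + 2))
              (Crest.OracleRAM.orun P n (indepOracle M₁ M₂)
                (c₀ * Nat.clog 2 (n + r + ε.num.natAbs + ε.den + δ.num.natAbs + δ.den + 2)) ρ
                (countInput n r ε δ) (C * (sizeParam n r ε δ + 1) ^ d)).cfg.output = some 0) ∧
        1 - (δ : ℝ) ≤ Crest.OracleRAM.oprobAfter P n (indepOracle M₁ M₂)
            (c₀ * Nat.clog 2 (n + r + ε.num.natAbs + ε.den + δ.num.natAbs + δ.den + 2))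
            (countInput n r ε δ) (C * (sizeParam n r ε δ + 1) ^ d)
            (fun c => ∃ z : ℚ, Crest.OracleRAM.decodeRat
                (c₀ * Nat.clog 2 (n + r + ε.num.natAbs + ε.den + δ.num.natAbs + δ.den + 2))
                c.cfg.output = some z ∧
              (1 - ε) * numCommonBases M₁ M₂ ≤ z ∧ z ≤ (1 + ε) * numCommonBases M₁ M₂) := by
  obtain ⟨P, c₀, C, d, h⟩ := mc hc hF
  refine ⟨P, c₀, C, d, fun n R M₁ M₂ ε δ h1 h2 h3 h4 hε _ hδ _ =>
    h n R _ _ ε δ (fun b S => ?_) (H n R M₁ M₂ h1 h2 h3 h4) hε hδ _ _ rfl rfl⟩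
  unfold indepOracle
  by_cases hh : (if b then M₂ else M₁).Indep (S : Set (Fin n))
  · rw [if_pos hh]; omega
  · rw [if_neg hh]; omega

end Crest.Agent.ORAM
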