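import Crest.Agent.ORAM.MCDefs
import Crest.Agent.R287.Lib

/-!
Row 302: the round machine that draws a random number and runs an oracle controller.
-/

set_option autoImplicit false

namespace Crest.Agent.ORAM

open Crest.Agent.PT Crest.Agent.QC Crest.Agent.R317 Crest.Agent.R300U Crest.Agent.R302
open Crest.Agent.R287 Crest.OracleRAM

/-- Left summand or a default. -/
def getL {β γ : Type} (d : β) (s : β ⊕ γ) : β := s.elim id (fun _ => d)

/-- Right summand or a default. -/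
def getR {β γ : Type} (d : γ) (s : β ⊕ γ) : γ := s.elim (fun _ => d) id

section

variable {α β γ : Type} [Enc α] [Enc β] [Enc γ]

@[fun_prop] theorem pt_getL (d : β) {s : α → β ⊕ γ} (hs : PT s) : PT (fun a => getL d (s a)) :=
  (PT.cond (pt_isRight hs) (PT.toRaw.comp (PT.const d))
    (PT.tail (PT.toRaw.comp hs))).of_enc_eq (fun a => by cases s a <;> rfl)

@[fun_prop] theorem pt_getR (d : γ) {s : α → β ⊕ γ} (hs : PT s) : PT (fun a => getR d (s a)) :=
  (PT.cond (pt_isRight hs) (PT.tail (PT.toRaw.comp hs))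
    (PT.toRaw.comp (PT.const d))).of_enc_eq (fun a => by cases s a <;> rfl)

@[fun_prop] theorem bt_valR {l : α → List Bool} (hl : PT l) : BT (fun a => valR (l a)) :=
  PT.ofRev (pt_toR hl)

end

/-- The limbs of `v` in base `2 ^ w`. -/
def limbs (w v : ℕ) : List Bin := mkL v.size fun i => ⟨fld v (w * i) w⟩

/-- The output words for a rational number. -/
def ratW (w : ℕ) (z : ℚ) : List Bin :=
  ⟨z.num.natAbs.size⟩ :: (limbs w z.num.natAbs ++ limbs w z.den)

theorem wordsVal_range (w L v : ℕ) :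
    wordsVal w ((List.range L).map fun i => fld v (w * i) w) = v % 2 ^ (w * L) := by
  induction L generalizing v with
  | zero => simp [wordsVal, Nat.mod_one]
  | succ L ih =>
    rw [List.range_succ_eq_map, List.map_cons, List.map_map, wordsVal]
    have h : ((fun i => fld v (w * i) w) ∘ Nat.succ) = fun i => fld (v / 2 ^ w) (w * i) w := by
      funext i
      simp only [Function.comp, fld, Nat.div_div_eq_div_mul, ← pow_add]
      congr 3
      rw [Nat.succ_eq_add_one]; ring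
    rw [h, ih, show w * (L + 1) = w + w * L by ring, pow_add, Nat.mod_mul]
    simp [fld]

theorem wordsVal_limbs {w : ℕ} (hw : 1 ≤ w) (v : ℕ) :
    wordsVal w ((limbs w v).map Bin.val) = v := by
  have : (limbs w v).map Bin.val = (List.range v.size).map fun i => fld v (w * i) w := by
    simp [limbs, mkL, Function.comp_def]
  rw [this, wordsVal_range, Nat.mod_eq_of_lt]
  exact (Nat.lt_size_self v).trans_le
    (Nat.pow_le_pow_right (by norm_num) (Nat.le_mul_of_pos_left _ hw))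

theorem decodeRat_ratW {w : ℕ} (hw : 1 ≤ w) {z : ℚ} (hz : 0 ≤ z) :
    decodeRat w ((ratW w z).map Bin.val) = some z := by
  have hl : ((limbs w z.num.natAbs).map Bin.val).length = z.num.natAbs.size := by simp [limbs]
  simp only [ratW, List.map_cons, List.map_append, decodeRat]
  rw [List.drop_left' hl, List.take_left' hl, wordsVal_limbs hw, wordsVal_limbs hw,
    if_neg z.den_nz]
  congr 1
  have h1 : ((z.num.natAbs : ℕ) : ℚ) = (z.num : ℚ) := by
    rw [← Int.cast_natCast, Int.natAbs_of_nonneg (Rat.num_nonneg.2 hz)]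
  rw [h1, Rat.num_div_den]

theorem ratW_lt {w : ℕ} {z : ℚ} (hz : sz z < 2 ^ w) : ∀ v ∈ ratW w z, v.val < 2 ^ w := by
  have key : ∀ u, ∀ v ∈ limbs w u, v.val < 2 ^ w := by
    intro u v hv
    simp only [limbs, mkL, List.mem_map] at hv
    obtain ⟨i, -, rfl⟩ := hv
    exact Nat.mod_lt _ (by positivity)
  intro v hv
  simp only [ratW, List.mem_cons, List.mem_append] at hv
  rcases hv with rfl | hv | hv
  · have h1 := sz_q z
    have h2 := PT.size_natAbs_le z.num
    simp only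
    omega
  · exact key _ _ hv
  · exact key _ _ hv

@[fun_prop] theorem pt_limbs {α : Type} [Enc α] {w v : α → ℕ} (hw : PT w) (hv : BT v) :
    PT (fun a => limbs (w a) (v a)) := by
  unfold limbs
  fun_prop

@[fun_prop] theorem pt_ratW {α : Type} [Enc α] {w : α → ℕ} {z : α → ℚ} (hw : PT w) (hz : PT z) :
    PT (fun a => ratW (w a) (z a)) := by
  unfold ratW
  refine pt_cons (BT.mk (BT.ofPT (BT.size (bt_natAbs (pt_qnum hz))))) ?_
  exact pt_append (pt_limbs hw (bt_natAbs (pt_qnum hz))) (pt_limbs hw (bt_qden hz))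

/-- Header: word length, then `n`, `R`, `a` in binary. -/
abbrev Hdr : Type := ℕ × Bin × Bin × Bin

/-- States: header, unary counter, random bits, table of answered queries. -/
abbrev MS : Type := Hdr × ℕ × List Bool × Tab

/-- The accuracy parameter from the words of `ε` and the denominator of `δ`. -/
def accW (en ed dd : ℕ) : ℕ := ed / en + 1 + dd.size

/-- The header read off the input words. -/
def hdrOf (p : ℕ × List Bin) : Hdr :=
  (p.1, p.2.getD 0 ⟨0⟩, p.2.getD 1 ⟨0⟩,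
    ⟨accW (p.2.getD 2 ⟨0⟩).val (p.2.getD 3 ⟨0⟩).val (p.2.getD 5 ⟨0⟩).val⟩)

theorem pt_hdrOf : PT hdrOf := by
  unfold hdrOf accW
  refine PT.pair (by fun_prop) (PT.pair (by fun_prop) (PT.pair (by fun_prop) (BT.mk ?_)))
  refine BT.add (by fun_prop) (BT.ofPT (BT.size (by fun_prop)))

/-- The input of the counter, once the unary counter is large enough. -/
def xin (s : MS) : CIn := (un s.2.1 s.1.2.1.val, s.1.2.2.1, un s.2.1 s.1.2.2.2.val)

theorem pt_xin : PT xin := by
  unfold xin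
  fun_prop

section Machine

variable (c : CIn → ℕ) (ctl : Tab × (CIn × Bin) → Q ⊕ ℚ)

/-- The request of the controller. -/
def req (s : MS) : Q ⊕ ℚ := ctl (s.2.2.2, (xin s, ⟨valR s.2.2.1⟩))

/-- The action. -/
def mact (s : MS) : ℕ :=
  if s.2.1 < s.1.2.1.val + s.1.2.2.2.val then 4
  else if s.2.2.1.length < c (xin s) then 1
  else if (req ctl s).isRight = true then 0
  else if (getL (false, []) (req ctl s)).1 = true then 3 else 2

/-- The update. -/
def mupd (p : MS × Bin) : MS :=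
  if p.1.2.1 < p.1.1.2.1.val + p.1.1.2.2.2.val then (p.1.1, p.1.2.1 + 1, p.1.2.2)
  else if p.1.2.2.1.length < c (xin p.1) then
    (p.1.1, p.1.2.1, p.1.2.2.1 ++ [decide (p.2.val = 1)], p.1.2.2.2)
  else (p.1.1, p.1.2.1, p.1.2.2.1, (getL (false, []) (req ctl p.1), p.2) :: p.1.2.2.2)

variable {c ctl}

theorem pt_req (hctl : PT ctl) : PT (req ctl) := by
  unfold req
  exact hctl.comp (PT.pair (by fun_prop) (PT.pair pt_xin (BT.mk (by fun_prop))))

theorem pt_mact (hc : PT c) (hctl : PT ctl) : PT (mact c ctl) := by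
  have h1 := pt_req hctl
  have h2 : PT (fun s => c (xin s)) := hc.comp pt_xin
  unfold mact
  refine PT.iteD (by fun_prop) (PT.const _) (PT.iteD (DT.lt (by fun_prop) (BT.ofPT h2))
    (PT.const _) (PT.iteD (dt_beq (pt_isRight h1) (PT.const _)) (PT.const _)
    (PT.iteD (dt_beq (pt_getL _ h1).fst (PT.const _)) (PT.const _) (PT.const _))))

theorem pt_mupd (hc : PT c) (hctl : PT ctl) : PT (mupd c ctl) := by
  have h1 : PT (fun p : MS × Bin => req ctl p.1) := (pt_req hctl).comp PT.id'.fst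
  have h2 : PT (fun p : MS × Bin => c (xin p.1)) := (hc.comp pt_xin).comp PT.id'.fst
  have h3 : PT (fun p : MS × Bin => getL ((false, []) : Q) (req ctl p.1)) := pt_getL _ h1
  unfold mupd
  refine PT.iteD (by fun_prop) (by fun_prop) (PT.iteD (DT.lt (by fun_prop) (BT.ofPT h2)) ?_ ?_)
  · refine PT.pair (by fun_prop) (PT.pair (by fun_prop) (PT.pair ?_ (by fun_prop)))
    exact pt_append (by fun_prop) (pt_cons (pt_decide (by fun_prop)) (PT.const _))
  · refine PT.pair (by fun_prop) (PT.pair (by fun_prop) (PT.pair (by fun_prop) ?_))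
    exact pt_cons (PT.pair h3 (by fun_prop)) (by fun_prop)

/-- The round machine. -/
def mach (hc : PT c) (hctl : PT ctl) : Rnd MS where
  init p := (hdrOf p, 0, [], [])
  act := mact c ctl
  qry s := (getL (false, []) (req ctl s)).2
  upd := mupd c ctl
  out s := ratW s.1.1 (getR 0 (req ctl s))
  pt_init := PT.pair pt_hdrOf (PT.const _)
  pt_act := pt_mact hc hctl
  pt_qry := (pt_getL _ (pt_req hctl)).snd
  pt_upd := pt_mupd hc hctl
  pt_out := pt_ratW (by fun_prop) (pt_getR _ (pt_req hctl))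

/-- The first `j` random bits. -/
def rbits (ρ : ℕ → ℕ) (j : ℕ) : List Bool := mkL j fun i => decide (ρ i % 2 = 1)

variable (hc : PT c) (hctl : PT ctl) (E : Env) (x : List ℕ) (R a : ℕ)

theorem st_phase1 (h0 : hdrOf (E.w, x.map fun v => ⟨v % 2 ^ E.w⟩) = (E.w, ⟨E.n⟩, ⟨R⟩, ⟨a⟩))
    (i : ℕ) (hi : i ≤ E.n + a) :
    (mach hc hctl).st E x i = (((E.w, ⟨E.n⟩, ⟨R⟩, ⟨a⟩), i, [], []), 0) := by
  induction i with
  | zero => rw [Rnd.st_zero, ← h0]; rfl
  | succ i ih =>
    have hi' : i < E.n + a := by omega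
    rw [Rnd.st_succ, ih (by omega)]
    simp [Rnd.step, mach, mact, mupd, hi']

theorem xin_eq (w n : ℕ) (l : List Bool) (tb : Tab) :
    xin ((w, ⟨n⟩, ⟨R⟩, ⟨a⟩), n + a, l, tb) = (n, ⟨R⟩, a) := by
  simp [xin, un]

theorem st_phase2 (h0 : hdrOf (E.w, x.map fun v => ⟨v % 2 ^ E.w⟩) = (E.w, ⟨E.n⟩, ⟨R⟩, ⟨a⟩))
    (j : ℕ) (hj : j ≤ c (E.n, ⟨R⟩, a)) :
    (mach hc hctl).st E x (E.n + a + j) =
      (((E.w, ⟨E.n⟩, ⟨R⟩, ⟨a⟩), E.n + a, rbits E.ρ j, []), j) := by
  induction j with
  | zero => rw [Nat.add_zero, st_phase1 hc hctl E x R a h0 _ le_rfl]; rfl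
  | succ j ih =>
    have hj' : j < c (E.n, ⟨R⟩, a) := by omega
    have hl : (rbits E.ρ j).length = j := by simp [rbits]
    rw [← Nat.add_assoc, Rnd.st_succ, ih (by omega)]
    simp only [Rnd.step, Rnd.ans, mach, mact, mupd, xin_eq, hl, hj', lt_irrefl, if_false, if_true,
      one_ne_zero]
    simp [rbits, mkL, List.range_succ]

theorem st_phase3 (h0 : hdrOf (E.w, x.map fun v => ⟨v % 2 ^ E.w⟩) = (E.w, ⟨E.n⟩, ⟨R⟩, ⟨a⟩))
    (hO : ∀ b A, E.O b A < 2 ^ E.w) (j : ℕ) :
    (mach hc hctl).st E x (E.n + a + c (E.n, ⟨R⟩, a) + j) =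
      (((E.w, ⟨E.n⟩, ⟨R⟩, ⟨a⟩), E.n + a, rbits E.ρ (c (E.n, ⟨R⟩, a)),
        proto (orc E.O) ctl ((E.n, ⟨R⟩, a), ⟨valR (rbits E.ρ (c (E.n, ⟨R⟩, a)))⟩) j),
        c (E.n, ⟨R⟩, a)) := by
  induction j with
  | zero => rw [Nat.add_zero, st_phase2 hc hctl E x R a h0 _ le_rfl]; rfl
  | succ j ih =>
    have hl : (rbits E.ρ (c (E.n, ⟨R⟩, a))).length = c (E.n, ⟨R⟩, a) := by simp [rbits]
    rw [← Nat.add_assoc, Rnd.st_succ, ih]
    simp only [Rnd.step, Rnd.ans, mach, mact, mupd, req, xin_eq, hl, lt_irrefl, if_false, proto]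
    cases h : ctl (proto (orc E.O) ctl ((E.n, ⟨R⟩, a), ⟨valR (rbits E.ρ (c (E.n, ⟨R⟩, a)))⟩) j,
      ((E.n, ⟨R⟩, a), ⟨valR (rbits E.ρ (c (E.n, ⟨R⟩, a)))⟩)) with
    | inr z => simp
    | inl q =>
      obtain ⟨b, l⟩ := q
      cases b <;> simp [getL, orc, Nat.mod_eq_of_lt (hO _ _)]

end Machine

end Crest.Agent.ORAM
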