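import Crest.Agent.ORAM.Defs
import Crest.Agent.R302.OPT
import Crest.Agent.R309.DefsB
import Crest.Agent.R300U.GPTQ

/-!
Row 302: the interface from which the two counting statements follow.
-/

set_option autoImplicit false

namespace Crest.Agent.ORAM

open Crest.Agent.PT Crest.Agent.QC Crest.Agent.R317 Crest.Agent.R300U Crest.Agent.R302

/-- Inputs of the counter: `n` (unary), the common total rank `R` (binary), the accuracy `a`
(unary). -/
abbrev CIn : Type := ℕ × Bin × ℕ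

/-- The pair of set oracles on `Fin n` as an oracle on bit lists. -/
def orc {n : ℕ} (O : Bool → Finset (Fin n) → ℕ) : Orc := fun q => O q.1 (setOf n q.2)

/-- The interface: with the oracle `O`, `F (x, u)` for a uniform `c x`-bit number `u` approximates
`N` within `1 ± 1/a` with probability at least `1 - 2 ^ (-a)`, is nonnegative, and vanishes when
`N = 0`. -/
def GoodAt (c : CIn → ℕ) (F : Orc → CIn × Bin → ℚ) (n R : ℕ) (O : Bool → Finset (Fin n) → ℕ)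
    (N : ℕ) : Prop :=
  ∀ a : ℕ, 1 ≤ a →
    (∀ u < 2 ^ c (n, ⟨R⟩, a), 0 ≤ F (orc O) ((n, ⟨R⟩, a), ⟨u⟩)) ∧
    (N = 0 → ∀ u < 2 ^ c (n, ⟨R⟩, a), F (orc O) ((n, ⟨R⟩, a), ⟨u⟩) = 0) ∧
    1 - (2 : ℝ)⁻¹ ^ a ≤ R309.Pb (c (n, ⟨R⟩, a)) fun u =>
      (1 - 1 / (a : ℝ)) * N ≤ (F (orc O) ((n, ⟨R⟩, a), ⟨u⟩) : ℝ) ∧
      (F (orc O) ((n, ⟨R⟩, a), ⟨u⟩) : ℝ) ≤ (1 + 1 / (a : ℝ)) * N

end Crest.Agent.ORAM
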