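import Crest.Agent.ORAM.IO

/-! The prologue: constants, word length and the input words on the working stack. -/

set_option autoImplicit false

namespace Crest.Agent.ORAM

open Crest.Agent.PT Crest.Agent.R317 Crest.WordRAM

variable {K : Type} {C : Cx K} {E : Env}

/-- Initialise the stack pointers. -/
def spInit : ℕ → Stm
  | 0 => .skip
  | j + 1 => .seq (spInit j) (.seq (.at (.const 11 j)) (.at (.add (20 + j) 0 11)))

theorem tr_spInit {m : ℕ} : ∀ (κ : ℕ) {σ : St}, σ.R 0 = m → m + κ < 2 ^ E.w →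
    Tr E (spInit κ) σ (fun σ' => (∀ j < κ, σ'.R (20 + j) = m + j) ∧ FrR [11] σ σ' ∧ σ'.M = σ.M)
      (2 * κ)
  | 0, σ, _, _ => Tr.skip ⟨by simp, FrR.refl _ _, rfl⟩
  | κ + 1, σ, h0, hlt => by
    refine (Tr.bind (tr_spInit κ h0 (by omega)) fun σ1 h1 => Tr.seqAt (Tr.atom
      ⟨fun j hj => ?_, ⟨fun r hr hm => ?_, h1.2.1.d, h1.2.1.q⟩, h1.2.2⟩)).mono (by omega)
    · simp only [At.ex, St.set_R, if_true, show ((0 : ℕ) = 11) = False by simp, if_false,
        h1.2.1.R 0 (by omega) (by simp), h0]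
      by_cases hj' : j = κ
      · subst hj'
        rw [if_pos rfl, Nat.mod_eq_of_lt (a := j) (by omega), Nat.mod_eq_of_lt (by omega)]
      · rw [if_neg (by omega), if_neg (by omega)]; exact h1.1 j (by omega)
    · simp only [List.mem_cons, List.not_mem_nil, or_false] at hm
      simp only [At.ex, St.set_R]
      rw [if_neg (by omega), if_neg hm]; exact h1.2.1.R r hr (by simpa using hm)

/-- Compute the word length (register `19`) and `2 ^ (w - 1)` (register `7`). -/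
def wLoop : Stm :=
  .wne 13 2 (.seq (.at (.copy 7 13)) (.seq (.at (.add 13 13 13)) (.at (.add 19 19 3))))

theorem tr_wLoop : ∀ (r i : ℕ) {σ : St}, i + r = E.w → σ.R 2 = 0 → σ.R 3 = 1 →
    σ.R 13 = 2 ^ i % 2 ^ E.w → σ.R 19 = i → (1 ≤ i → σ.R 7 = 2 ^ (i - 1)) →
    Tr E wLoop σ (fun σ' => σ'.R 19 = E.w ∧ (1 ≤ E.w → σ'.R 7 = 2 ^ (E.w - 1)) ∧
      FrR [7, 13, 19] σ σ' ∧ σ'.M = σ.M) (5 * r + 1)
  | 0, i, σ, hi, h2, _, h13, h19, h7 => by
    obtain rfl : i = E.w := by omega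
    exact Tr.wT (by rw [h13, h2]; simp) ⟨h19, h7, FrR.refl _ _, rfl⟩
  | r + 1, i, σ, hi, h2, h3, h13, h19, h7 => by
    have hlt : 2 ^ i < 2 ^ E.w := Nat.pow_lt_pow_right (by omega) (by omega)
    rw [Nat.mod_eq_of_lt hlt] at h13
    have hw : E.w < 2 ^ E.w := Nat.lt_two_pow_self
    have body : Tr E (.seq (.at (.copy 7 13)) (.seq (.at (.add 13 13 13)) (.at (.add 19 19 3)))) σ
        (fun σ' => σ'.R 13 = 2 ^ (i + 1) % 2 ^ E.w ∧ σ'.R 19 = i + 1 ∧ σ'.R 7 = 2 ^ i ∧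
          FrR [7, 13, 19] σ σ' ∧ σ'.M = σ.M) 3 := by
      refine Tr.seqAt (b := 2) (Tr.seqAt (Tr.atom ⟨?_, ?_, ?_, ?_, rfl⟩))
      · simp [At.ex, h13, pow_succ, mul_two]
      · simp only [At.ex, St.set_R]; simp [h19, h3, Nat.mod_eq_of_lt (show i + 1 < 2 ^ E.w by omega)]
      · simp [At.ex, h13]
      · exact ((FrR.set σ 7 _).trans (ms'' := [7, 13, 19]) (FrR.set _ 13 _)).trans (FrR.set _ 19 _)
    refine (Tr.wF (by rw [h13, h2]; positivity) body fun σ' h' =>
      (tr_wLoop r (i + 1) (by omega) (by rw [h'.2.2.2.1.R 2 (by omega) (by simp), h2])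
        (by rw [h'.2.2.2.1.R 3 (by omega) (by simp), h3]) h'.1 h'.2.1 fun _ => by simpa using h'.2.2.1).imp
        fun σ'' h'' => ⟨h''.1, h''.2.1, h'.2.2.2.1.trans h''.2.2.1, h''.2.2.2.trans h'.2.2.2.2⟩).mono
      (by omega)

/-- Set up all constants. -/
def setupC (κ : ℕ) : Stm :=
  .seq (.at (.const 3 1)) (.seq (.at (.const 4 2)) (.seq (.at (.const 5 κ)) (.seq (.at (.add 6 0 5))
    (.seq (.at (.sub 6 6 3)) (.seq (.at (.copy 13 3)) (.seq wLoop (spInit κ)))))))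

/-- The initial state. -/
def st0 (w : ℕ) (x : List ℕ) : St :=
  ⟨fun j => if j = 0 then x.length % 2 ^ w else 0, fun i => x[i]?.getD 0 % 2 ^ w, 0, 0⟩

theorem tr_setup (hw : 2 * C.H = 2 ^ E.w) {x : List ℕ} (hb : C.b = x.length) (hR : Room C 0)
    (hκ : 1 ≤ C.κ) :
    Tr E (setupC C.κ) (st0 E.w x) (fun σ' => Rep C σ' (fun _ => []) ∧ σ'.R 19 = E.w ∧
      σ'.R 0 = x.length ∧ σ'.M = (st0 E.w x).M ∧ σ'.d = 0 ∧ σ'.q = 0)
      (5 * E.w + 2 * C.κ + 7) := by
  unfold Room at hR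
  have hw1 : 1 ≤ E.w := by
    rcases Nat.eq_zero_or_pos E.w with h | h
    · rw [h] at hw; omega
    · exact h
  have hH : C.H = 2 ^ (E.w - 1) := by
    obtain ⟨k, hk⟩ := Nat.exists_eq_add_of_le hw1
    rw [hk, pow_add] at hw
    rw [hk, Nat.add_sub_cancel_left]; omega
  have m1 : 1 % 2 ^ E.w = 1 := Nat.mod_eq_of_lt (by omega)
  have m2 : 2 % 2 ^ E.w = 2 := Nat.mod_eq_of_lt (by omega)
  have m3 : C.κ % 2 ^ E.w = C.κ := Nat.mod_eq_of_lt (by omega)
  have m4 : x.length % 2 ^ E.w = x.length := Nat.mod_eq_of_lt (by omega)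
  have m5 : (x.length + C.κ) % 2 ^ E.w = x.length + C.κ := Nat.mod_eq_of_lt (by omega)
  refine (Tr.seqAt (Tr.seqAt (Tr.seqAt (Tr.seqAt (Tr.seqAt (Tr.seqAt (Tr.bind
    (tr_wLoop E.w 0 (by omega) (by simp [At.ex, st0]) (by simp [At.ex, m1]) (by simp [At.ex, m1])
      (by simp [At.ex, st0]) (by omega)) fun σ1 h1 =>
    (tr_spInit (m := x.length) C.κ ?_ (by omega)).imp fun σ2 h2 => ?_))))))).mono (by omega)
  · rw [h1.2.2.1.R 0 (by omega) (by simp)]; simp [At.ex, st0, m4]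
  · have f := h1.2.2.1.trans (ms'' := [7, 11, 13, 19]) h2.2.1
    refine ⟨⟨?_, ?_, ?_, ?_, ?_, ?_, fun k => ?_, fun _ => trivial⟩, ?_, ?_, ?_, ?_, ?_⟩
    · rw [f.R 2 (by omega) (by simp)]; simp [At.ex, st0]
    · rw [f.R 3 (by omega) (by simp)]; simp [At.ex, m1]
    · rw [f.R 4 (by omega) (by simp)]; simp [At.ex, m2]
    · rw [f.R 5 (by omega) (by simp)]; simp [At.ex, m3]
    · rw [f.R 6 (by omega) (by simp)]; simp [At.ex, m1, m3, m4, m5, st0, hb]
    · rw [h2.2.1.R 7 (by omega) (by simp), h1.2.1 hw1, hH]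
    · rw [h2.1 _ (C.e_lt k), hb]; simp
    · rw [h2.2.1.R 19 (by omega) (by simp), h1.1]
    · rw [f.R 0 (by omega) (by simp)]; simp [At.ex, st0, m4]
    · rw [h2.2.2, h1.2.2.2]; rfl
    · rw [f.d]; rfl
    · rw [f.q]; rfl

/-- Push the input words. -/
def inWords (j : ℕ) : Stm :=
  .wne 14 2 (.seq (.at (.sub 14 14 3)) (.seq (.at (.load 12 14)) (pushW j)))

theorem size_mod_le (v w : ℕ) : (v % 2 ^ w).size ≤ w :=
  Nat.size_le.2 (Nat.mod_lt _ (Nat.two_pow_pos w))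

theorem sz_words_le (w : ℕ) (x : List ℕ) :
    sz (x.map fun v => wd (v % 2 ^ w)) ≤ x.length * (2 * w + 1) := by
  induction x with
  | nil => simp
  | cons v x ih =>
    have := size_mod_le v w
    rw [List.map_cons, sz_cons, sz_wd, List.length_cons, Nat.succ_mul x.length]; omega

theorem tr_inWords (hw : 2 * C.H = 2 ^ E.w) (k : K) {x : List ℕ} (hb : C.b = x.length)
    (hR : Room C (x.length * (2 * E.w + 1))) : ∀ (i : ℕ) {σ : St} {S : K → List Bool}, Rep C σ S →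
    i ≤ x.length → σ.R 14 = i → (∀ a < x.length, σ.M a = x[a]?.getD 0 % 2 ^ E.w) →
    S k = enc ((x.drop i).map fun v => wd (v % 2 ^ E.w)) →
    Tr E (inWords (C.e k)) σ (fun σ' => Rep C σ' (upd S k (enc (x.map fun v => wd (v % 2 ^ E.w)))) ∧
      Fr C [12, 13, 14] σ σ') (i * (8 * E.w + 7) + 1)
  | 0, σ, S, h, _, h14, _, hk => by
    refine (Tr.wT (by rw [h14, h.r2]) ⟨?_, Fr.refl _ _⟩).mono (by omega)
    rw [List.drop_zero] at hk
    rw [← hk, upd_self]; exact h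
  | i + 1, σ, S, h, hi, h14, hM, hk => by
    have hd : x.drop i = x[i] :: x.drop (i + 1) := List.drop_eq_getElem_cons (by omega)
    have e14 : σ.R 14 - σ.R 3 = i := by rw [h14, h.r3]; omega
    have hsz := size_mod_le x[i] E.w
    have hle := sz_words_le E.w (x.drop i)
    rw [hd, List.map_cons, sz_cons, sz_wd, ← hd] at hle
    have hle2 : (x.drop i).length * (2 * E.w + 1) ≤ x.length * (2 * E.w + 1) :=
      Nat.mul_le_mul_right _ (by simp)
    have body : Tr E (.seq (.at (.sub 14 14 3)) (.seq (.at (.load 12 14)) (pushW (C.e k)))) σ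
        (fun σ' => Rep C σ' (upd S k (enc ((x.drop i).map fun v => wd (v % 2 ^ E.w)))) ∧
          σ'.R 14 = i ∧ Fr C [12, 13, 14] σ σ') (8 * E.w + 5) := by
      refine (Tr.seqAt (Tr.seqAt ((tr_pushW hw k (v := x[i] % 2 ^ E.w) ((h.set 14 _).set 12 _) ?_
        (hR.mono ?_)).imp fun σ1 h1 => ⟨?_, ?_, ?_⟩))).mono (by omega)
      · simp only [At.ex, St.set_R, if_true, e14, St.set_M]
        rw [hM i (by omega), List.getElem?_eq_getElem (by omega)]; rfl
      · rw [hk]; unfold sz at hle; omega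
      · rw [hd, List.map_cons, enc_cons, ← hk]; exact h1.1
      · rw [h1.2.R 14 (by omega) (by simp)]; simp [At.ex, e14]
      · exact ((Fr.set σ 14 _).trans (ms'' := [12, 13, 14]) (Fr.set _ 12 _)).trans h1.2
    refine (Tr.wF (by rw [h14, h.r2]; omega) body fun σ' h' =>
      (tr_inWords hw k hb hR i h'.1 (by omega) h'.2.1
        (fun a ha => by rw [h'.2.2.M a (by omega), hM a ha]) (by simp)).imp fun σ'' h'' =>
        ⟨by simpa using h''.1, h'.2.2.trans h''.2⟩).mono ?_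
    rw [Nat.succ_mul i]; omega

/-- Push the word length in doubled unary. -/
def inLen (j : ℕ) : Stm :=
  .wne 19 2 (.seq (pushR j 3) (.seq (pushR j 3) (.at (.sub 19 19 3))))

theorem tr_inLen (hw : 2 * C.H = 2 ^ E.w) (k : K) : ∀ (i : ℕ) {σ : St} {S : K → List Bool},
    Rep C σ S → σ.R 19 = i → Room C ((S k).length + 2 * i) →
    Tr E (inLen (C.e k)) σ (fun σ' => Rep C σ' (upd S k (dbl (List.replicate i true) ++ S k)) ∧
      Fr C [19] σ σ') (7 * i + 1)
  | 0, σ, S, h, h19, _ => Tr.wT (by rw [h19, h.r2]) ⟨by simpa using h, Fr.refl _ _⟩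
  | i + 1, σ, S, h, h19, hR => by
    have body : Tr E (.seq (pushR (C.e k) 3) (.seq (pushR (C.e k) 3) (.at (.sub 19 19 3)))) σ
        (fun σ' => Rep C σ' (upd S k (true :: true :: S k)) ∧ σ'.R 19 = i ∧ Fr C [19] σ σ') 5 := by
      refine Tr.bind (b := 3) (tr_push hw h k (x := true) h.r3 (hR.mono (by omega))) fun σ1 h1 =>
        Tr.bind (b := 1) (tr_push hw h1.1 k (x := true) h1.1.r3 (hR.mono (by simp; omega)))
          fun σ2 h2 => Tr.atom ⟨by simpa [At.ex] using h2.1.set 19 _, ?_,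
            (h1.2.trans (ms'' := []) h2.2).trans (Fr.set _ 19 _)⟩
      simp only [At.ex, St.set_R, if_true, h2.1.r3]
      rw [h2.2.R 19 (by omega) (by simp), h1.2.R 19 (by omega) (by simp), h19]; omega
    refine (Tr.wF (by rw [h19, h.r2]; omega) body fun σ' h' =>
      (tr_inLen hw k i h'.1 h'.2.1 (hR.mono (by simp; omega))).imp fun σ'' h'' =>
        ⟨?_, h'.2.2.trans h''.2⟩).mono (by omega)
    have := h''.1
    rw [upd_upd, upd_same] at this
    rw [List.replicate_succ', dbl_append]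
    simpa using this

/-- The whole input routine. -/
def inputC (κ j : ℕ) : Stm :=
  .seq (setupC κ) (.seq (.at (.copy 14 0)) (.seq (inWords j) (.seq (pushR j 2) (inLen j))))

theorem tr_input (hw : 2 * C.H = 2 ^ E.w) (k : K) {x : List ℕ} (hb : C.b = x.length)
    (hR : Room C (x.length * (2 * E.w + 1) + 2 * E.w + 1)) :
    Tr E (inputC C.κ (C.e k)) (st0 E.w x) (fun σ' => Rep C σ' (upd (fun _ => []) k
        (enc (E.w, x.map fun v => wd (v % 2 ^ E.w)))) ∧ (∀ i, σ'.M (C.H + i) = 0) ∧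
      σ'.d = 0 ∧ σ'.q = 0) (x.length * (8 * E.w + 7) + 12 * E.w + 2 * C.κ + 12) := by
  have hκ := C.e_lt k
  have hsz := sz_words_le E.w x
  have hH : x.length < C.H := by
    have := hR.lt (i := 0) (j := 0) (by omega) (by omega); omega
  unfold inputC
  refine (Tr.bind (tr_setup hw hb (hR.mono (by omega)) (by omega)) fun σ1 h1 => Tr.seqAt
    (Tr.bind (tr_inWords hw k hb (hR.mono (by omega)) x.length (σ := σ1.set 14 (σ1.R 0))
      (h1.1.set 14 _) le_rfl
      (by simp [h1.2.2.1]) (fun a _ => by simp [h1.2.2.2.1, st0]) (by simp [enc_nil])) fun σ2 h2 =>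
    Tr.bind (tr_push hw h2.1 k (x := false) h2.1.r2 (hR.mono (by
      rw [upd_same]; unfold sz at hsz; omega))) fun σ3 h3 =>
    (tr_inLen hw k E.w h3.1 ?_ (hR.mono (by
      simp only [upd_same, List.length_cons]; unfold sz at hsz; omega))).imp
      fun σ4 h4 => ⟨?_, fun i => ?_, ?_, ?_⟩)).mono (by omega)
  · rw [h3.2.R 19 (by omega) (by simp), h2.2.R 19 (by omega) (by simp)]; simp [h1.2.1]
  · have := h4.1
    simp only [upd_upd, upd_same] at this
    exact this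
  · rw [h4.2.M _ (by omega), h3.2.M _ (by omega), h2.2.M _ (by omega)]
    simp only [St.set_M, h1.2.2.2.1, st0]
    rw [List.getElem?_eq_none (by omega)]; simp
  · rw [h4.2.d, h3.2.d, h2.2.d]; exact h1.2.2.2.2.1
  · rw [h4.2.q, h3.2.q, h2.2.q]; exact h1.2.2.2.2.2

/-! ### Register bounds -/

theorem ok_spInit {r : ℕ} : ∀ κ, 20 + κ ≤ r → (spInit κ).ok r
  | 0, _ => trivial
  | κ + 1, h => ⟨ok_spInit κ (by omega), by simp [Stm.ok, At.ok]; omega⟩

theorem ok_input {r κ j : ℕ} (hκ : 20 + κ ≤ r) (hj : 20 + j < r) : (inputC κ j).ok r := by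
  have := ok_spInit (r := r) κ hκ
  simp [inputC, setupC, wLoop, inWords, inLen, pushW, pushWB, pushR, Stm.ok, At.ok, this]; omega

end Crest.Agent.ORAM
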