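import Crest.Agent.ORAM.Pro
import Crest.Agent.ORAM.Defs

/-! The controller functions of a round machine and one round on the RAM. -/

set_option autoImplicit false

namespace Crest.Agent.ORAM

open Crest.Agent.PT Crest.Agent.R317 Crest.Agent.QC Crest.WordRAM

theorem pt_map {α β γ : Type} [Enc α] [Enc β] [Enc γ] {l : α → List β} {f : β → γ} (d : β)
    (hl : PT l) (hf : PT f) : PT (fun a => (l a).map f) := by
  have h : PT (fun a => mkL (l a).length (fun i => f ((l a).getD i d))) :=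
    pt_mkL (f := fun a i => f ((l a).getD i d)) (pt_length hl)
      (hf.comp (pt_getD (hl.comp PT.id'.fst) PT.id'.snd (PT.const d)))
  refine h.congr fun a => ?_
  apply List.ext_getElem
  · simp
  · intro i h1 h2
    simp only [length_mkL] at h1
    simp [mkL, List.getD_eq_getElem?_getD, h1]

theorem pt_wd : PT (fun v : Bin => wd v.val) :=
  (PT.revApp (PT.toRaw (α := Bin)) (PT.const Raw.nil)).congr fun v => by
    simp [wd, Raw.revApp, Raw.nil, enc_bin]

/-- Two polynomial-time functions on one register set. -/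
theorem two_machines {α β : Type} [Enc α] [Enc β] {f : α → Raw} {g : β → Raw} (hf : PT f)
    (hg : PT g) : ∃ (τ : Type) (_ : Finite τ) (M N : Mach (Option τ)) (k : ℕ),
      (∀ a, M.Runs (st (enc a)) (st (f a).val) ((sz a + 2) ^ k)) ∧
      ∀ b, N.Runs (st (enc b)) (st (g b).val) ((sz b + 2) ^ k) := by
  obtain ⟨τ, _, M, T, ⟨k, hk⟩, h⟩ := hf
  obtain ⟨τ', _, M', T', ⟨k', hk'⟩, h'⟩ := hg
  refine ⟨Bool ⊕ (τ ⊕ τ'), inferInstance, M.rename (emb none Sum.inl),
    M'.rename (emb none Sum.inr), k + k', fun a => ?_, fun b => ?_⟩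
  · have h1 := runs_emb (τ := τ ⊕ τ') (r := none) (by simp) Sum.inl_injective (h a)
      (st3 (enc a) [] []) rfl (fun _ => rfl)
    simp only [upd_st3_io] at h1
    rw [st_eq_st3, st_eq_st3]
    exact h1.mono ((hk a).trans (Nat.pow_le_pow_right (by omega) (by omega)))
  · have h1 := runs_emb (τ := τ ⊕ τ') (r := none) (by simp) Sum.inr_injective (h' b)
      (st3 (enc b) [] []) rfl (fun _ => rfl)
    simp only [upd_st3_io] at h1
    rw [st_eq_st3, st_eq_st3]
    exact h1.mono ((hk' b).trans (Nat.pow_le_pow_right (by omega) (by omega)))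

namespace Rnd

variable {σ : Type} [Enc σ] (A : Rnd σ)

/-- The message of state `s` without its halting bit. -/
def body (s : σ) : Raw :=
  if A.act s = 0 then ⟨enc ((A.out s).map fun v => wd v.val)⟩
  else Raw.cons (decide (A.act s = 1)) (Raw.cons (decide (A.act s = 2 ∨ A.act s = 3))
    (Raw.cons (decide (A.act s = 3)) ⟨enc (toR (A.qry s), s)⟩))

/-- The message of state `s` to the machine. -/
def pack (s : σ) : Raw := Raw.cons (decide (A.act s = 0)) (A.body s)

theorem pt_body : PT A.body := by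
  have h1 := A.pt_act
  have h2 : PT fun s => (⟨enc ((A.out s).map fun v => wd v.val)⟩ : Raw) :=
    PT.toRaw.comp (pt_map ⟨0⟩ A.pt_out pt_wd)
  have h3 : PT fun s => (⟨enc (toR (A.qry s), s)⟩ : Raw) :=
    PT.toRaw.comp ((pt_toR A.pt_qry).pair PT.id')
  have h4 : ∀ c : ℕ, DT fun s => A.act s = c := fun c => DT.eq (BT.ofPT h1) (BT.const c)
  exact PT.iteD (h4 0) h2 (PT.cons (pt_decide (h4 1)) (PT.cons (pt_decide ((h4 2).or (h4 3)))
    (PT.cons (pt_decide (h4 3)) h3)))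

theorem pt_pack : PT A.pack :=
  PT.cons (pt_decide (DT.eq (BT.ofPT A.pt_act) (BT.const 0))) A.pt_body

/-- First controller call. -/
def g0 (p : ℕ × List Raw) : Raw := A.pack (A.init (p.1, p.2.map fun r => ⟨valR r.val⟩))

/-- Later controller calls. -/
def g1 (p : Raw × σ) : Raw := A.pack (A.upd (p.2, ⟨valR p.1.val⟩))

theorem pt_g0 : PT A.g0 :=
  A.pt_pack.comp (A.pt_init.comp (PT.id'.fst.pair (pt_map Raw.nil PT.id'.snd (PT.ofRev PT.id'))))

theorem pt_g1 : PT A.g1 :=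
  A.pt_pack.comp (A.pt_upd.comp (PT.id'.snd.pair (PT.ofRev PT.id'.fst)))

theorem g0_eq (w : ℕ) (x : List ℕ) : A.g0 (w, x.map fun v => wd (v % 2 ^ w)) =
    A.pack (A.init (w, x.map fun v => ⟨v % 2 ^ w⟩)) := by
  simp [g0, wd, valR_bits, Function.comp_def]

theorem g1_eq (s : σ) (a : ℕ) : A.g1 (wd a, s) = A.pack (A.upd (s, ⟨a⟩)) := by
  simp [g1, wd, valR_bits]

end Rnd

variable {τ : Type} {C : Cx (Option τ)} {E : Env}

@[simp] theorem upd_st (x y : List Bool) : upd (st x : Option τ → List Bool) none y = st y := by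
  funext j; cases j <;> simp [upd, st]

@[simp] theorem st_none (x : List Bool) : (st x : Option τ → List Bool) none = x := rfl

theorem st_len {x : List Bool} {N : ℕ} (h : x.length ≤ N) (j : Option τ) :
    ((st x : Option τ → List Bool) j).length ≤ N := by
  cases j
  · exact h
  · simp [st]

/-- Pop a bit into register `r`. -/
def popTo (j r : ℕ) : Stm := .seq (popC j) (.at (.copy r 8))

theorem tr_popTo {σ : St} {b : Bool} {l : List Bool} (h : Rep C σ (st (b :: l))) (r : ℕ)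
    (hr : 10 ≤ r ∧ r < 20 := by omega) :
    Tr E (popTo (C.e none) r) σ (fun σ' => Rep C σ' (st l) ∧ σ'.R r = b.toNat ∧
      Fr C [8, 9, r] σ σ') 6 :=
  Tr.bind (tr_pop h none) fun σ1 h1 => Tr.atom ⟨by simpa [At.ex] using h1.1.set r _,
    by simpa [At.ex, pcode] using h1.2.1, h1.2.2.trans (Fr.set _ r _)⟩

/-- Compute the answer to the request coded in registers `16, 17, 18` into register `12`. -/
def ansC : Stm :=
  .seq (.at (.copy 12 2)) (.seq (.ifeq 16 3 (.seq (.at (.rand 12)) (.at (.rem 12 12 4))) .skip)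
    (.ifeq 17 3 (.ifeq 18 3 (.at (.query true 7 12)) (.at (.query false 7 12))) .skip))

theorem qset_eq {M : ℕ → ℕ} {H n : ℕ} {q : List Bool}
    (h : ∀ i, M (H + i) = (q.getD i false).toNat) : qset n M H = setOf n q := by
  ext j
  simp only [qset, setOf, Finset.mem_filter, Finset.mem_univ, true_and, h]
  cases q.getD j false <;> simp

theorem tr_ans {α : Type} [Enc α] (A : Rnd α) (hw : 1 ≤ E.w) {σ : St}
    {S : Option τ → List Bool} (h : Rep C σ S) (s : α)
    (h16 : σ.R 16 = (decide (A.act s = 1)).toNat)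
    (h17 : σ.R 17 = (decide (A.act s = 2 ∨ A.act s = 3)).toNat)
    (h18 : σ.R 18 = (decide (A.act s = 3)).toNat)
    (hM : ∀ i, σ.M (C.H + i) = ((A.qry s).getD i false).toNat) :
    Tr E ansC σ (fun σ' => Rep C σ' S ∧ σ'.R 12 = A.ans E s σ.d ∧ σ'.R 14 = σ.R 14 ∧ σ'.M = σ.M ∧
      σ'.d = (if A.act s = 1 then σ.d + 1 else σ.d) ∧
      (A.act s ≠ 2 ∧ A.act s ≠ 3 → σ'.q = σ.q)) 10 := by
  have h2 := h.r2
  have h3 := h.r3
  have h4 := h.r4
  have h7 := h.r7
  have hq : qset E.n σ.M C.H = setOf E.n (A.qry s) := qset_eq hM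
  have hrep : ∀ σ' : St, (∃ v, σ'.R = Function.update σ.R 12 v) → σ'.M = σ.M → Rep C σ' S := by
    rintro σ' ⟨v, hv⟩ hm
    have := h.set 12 v
    exact ⟨hv ▸ this.r2, hv ▸ this.r3, hv ▸ this.r4, hv ▸ this.r5, hv ▸ this.r6, hv ▸ this.r7,
      fun k => hv ▸ this.sp k, fun k => hm ▸ h.stk k⟩
  by_cases a1 : A.act s = 1
  · refine (Tr.seqAt (Tr.seq (Tr.ifT (by simp [At.ex, h16, h3, a1]) (Tr.seqAt (Tr.atom
      (Tr.ifF (by simp [At.ex, h17, h3, a1]) (Tr.skip ⟨hrep _ ⟨_, by simp [At.ex, St.set]; rfl⟩ rfl,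
        ?_, by simp [At.ex], rfl, by simp [At.ex, a1], fun _ => rfl⟩))))))).mono (by omega)
    simp only [At.ex, St.set_R, Rnd.ans, a1, if_true, St.set_d]
    simp only [show ((4 : ℕ) = 12) = False by simp, if_false, h4]
    exact Nat.mod_mod_of_dvd _ (dvd_pow_self 2 (by omega))
  by_cases a2 : A.act s = 2
  · refine (Tr.seqAt (Tr.seq (Tr.ifF (by simp [At.ex, h16, h3, a1]) (Tr.skip
      (Tr.ifT (by simp [At.ex, h17, h3, a2]) (Tr.ifF (by simp [At.ex, h18, h3, a2]) (Tr.atom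
        ⟨hrep _ ⟨_, by simp [At.ex, St.set]; rfl⟩ rfl, ?_, by simp [At.ex], rfl,
          by simp [At.ex, a1], fun h => absurd a2 h.1⟩))))))).mono (by omega)
    simp [At.ex, Rnd.ans, a2, h7, hq]
  by_cases a3 : A.act s = 3
  · refine (Tr.seqAt (Tr.seq (Tr.ifF (by simp [At.ex, h16, h3, a1]) (Tr.skip
      (Tr.ifT (by simp [At.ex, h17, h3, a3]) (Tr.ifT (by simp [At.ex, h18, h3, a3]) (Tr.atom
        ⟨hrep _ ⟨_, by simp [At.ex, St.set]; rfl⟩ rfl, ?_, by simp [At.ex], rfl,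
          by simp [At.ex, a1], fun h => absurd a3 h.2⟩))))))).mono (by omega)
    simp [At.ex, Rnd.ans, a3, h7, hq]
  · refine (Tr.seqAt (Tr.seq (Tr.ifF (by simp [At.ex, h16, h3, a1]) (Tr.skip
      (Tr.ifF (by simp [At.ex, h17, h3, a2, a3]) (Tr.skip
        ⟨h.set 12 _, ?_, by simp [At.ex], rfl, by simp [At.ex, a1], fun _ => rfl⟩)))))).mono
      (by omega)
    simp [At.ex, Rnd.ans, a1, a2, a3, h2]

/-- One round. -/
noncomputable def roundC (e : Option τ → ℕ) (M : Mach (Option τ)) : Stm :=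
  .seq (popTo (e none) 16) (.seq (popTo (e none) 17) (.seq (popTo (e none) 18)
    (.seq (readQ (e none)) (.seq ansC (.seq clearQ (.seq (pushW (e none))
      (.seq (simC e M) (popTo (e none) 15))))))))

/-- The loop invariant. -/
structure Inv {α : Type} [Enc α] (A : Rnd α) (C : Cx (Option τ)) (p : α × ℕ) (σ : St) : Prop where
  rep : Rep C σ (st (A.body p.1).val)
  flag : σ.R 15 = (decide (A.act p.1 = 0)).toNat
  hi : ∀ i, σ.M (C.H + i) = 0
  d : σ.d = p.2
  q : (∀ s, A.act s ≠ 2 ∧ A.act s ≠ 3) → σ.q = 0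

theorem ans_lt {α : Type} [Enc α] (A : Rnd α) (hw : 1 ≤ E.w) (s : α) (d : ℕ) :
    A.ans E s d < 2 ^ E.w := by
  have h2 : 2 ^ 1 ≤ 2 ^ E.w := Nat.pow_le_pow_right (by omega) hw
  unfold Rnd.ans
  split_ifs
  · omega
  · exact Nat.mod_lt _ (by omega)
  · exact Nat.mod_lt _ (by omega)
  · omega

theorem tr_round {α : Type} [Enc α] (A : Rnd α) (hw : 2 * C.H = 2 ^ E.w) (M : Mach (Option τ))
    (hlab : Nat.card M.L < 2 ^ E.w) {p : α × ℕ} {N t : ℕ} (hact : A.act p.1 ≠ 0)
    (hM : ∀ a < 2 ^ E.w, M.Runs (st (enc (wd a, p.1))) (st (A.g1 (wd a, p.1)).val) t)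
    (hN : sz (A.body p.1) + 2 * E.w + 1 ≤ N) (hR : Room C (N + t)) {σ : St} (h : Inv A C p σ) :
    Tr E (roundC C.e M) σ (Inv A C (A.step E p))
      (t * (3 * (labels M).length + 12) + 22 * N + 50) := by
  have hw1 : 1 ≤ E.w := by
    rcases Nat.eq_zero_or_pos E.w with h | h
    · rw [h] at hw; omega
    · exact h
  have hb := h.rep
  have hsz : sz (A.body p.1) = 2 * (A.qry p.1).length + sz p.1 + 4 := by
    simp [Rnd.body, hact, sz, enc_pair, toR]; omega
  simp only [Rnd.body, hact, if_false, Raw.val_cons, enc_pair, enc_raw, toR] at hb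
  have hRN : Room C N := hR.mono (by omega)
  have hH : (A.qry p.1).length < C.H := by
    have h1 := hRN.lt (i := N) (j := 0) (by omega) (by have := C.e_lt none; omega)
    have h2 : 1 * N ≤ C.κ * N := Nat.mul_le_mul_right _ (by have := C.e_lt none; omega)
    omega
  have hans := ans_lt A hw1 p.1 p.2
  have hsize : (A.ans E p.1 p.2).size ≤ E.w := Nat.size_le.2 hans
  unfold roundC
  refine (Tr.bind (tr_popTo hb 16) fun σ1 h1 => Tr.bind (tr_popTo h1.1 17) fun σ2 h2 =>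
    Tr.bind (tr_popTo h2.1 18) fun σ3 h3 =>
    Tr.bind (tr_readQ hw none hRN h3.1 (st_len (by simp; unfold sz at hsz hN; omega)) rfl
      (fun i => by rw [h3.2.2.M _ (by omega), h2.2.2.M _ (by omega), h1.2.2.M _ (by omega), h.hi])
      hH) fun σ4 h4 =>
    Tr.bind (tr_ans A hw1 h4.1 p.1
      (by rw [h4.2.2.2.R 16 (by omega) (by simp), h3.2.2.R 16 (by omega) (by simp),
        h2.2.2.R 16 (by omega) (by simp), h1.2.1])
      (by rw [h4.2.2.2.R 17 (by omega) (by simp), h3.2.2.R 17 (by omega) (by simp), h2.2.1])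
      (by rw [h4.2.2.2.R 18 (by omega) (by simp), h3.2.1]) h4.2.2.1) fun σ5 h5 =>
    Tr.bind (tr_clearQ hRN (by rw [upd_st]; exact st_len (by unfold sz at hsz hN; omega))
      (A.qry p.1).length h5.1 (by rw [h5.2.2.1, h4.2.1])
      (fun i hi => by rw [h5.2.2.2.1, h4.2.2.1, List.getD_eq_default _ _ hi]; rfl)) fun σ6 h6 =>
    Tr.bind (tr_pushW hw none (v := A.ans E p.1 p.2) h6.1
      (by rw [h6.2.2.R 12 (by omega) (by simp), h5.2.1, h4.2.2.2.d, h3.2.2.d, h2.2.2.d, h1.2.2.d, h.d])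
      (hRN.mono (by simp only [upd_st, st_none]; unfold sz at hsz hN; omega))) fun σ7 h7 =>
    Tr.bind (tr_sim hw M hlab (hM _ hans) hR (st_len (by
      have := sz_pair (wd (A.ans E p.1 p.2)) p.1
      rw [sz_wd] at this
      unfold sz at this hsz hN; omega)) (by simpa [enc_pair] using h7.1)) fun σ8 h8 =>
    (tr_popTo (b := decide (A.act (A.upd (p.1, ⟨A.ans E p.1 p.2⟩)) = 0))
      (l := (A.body (A.upd (p.1, ⟨A.ans E p.1 p.2⟩))).val)
      (by simpa [A.g1_eq, Rnd.pack] using h8.1) 15).imp fun σ9 h9 => ?_).mono (by omega)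
  have hst : A.step E p = (A.upd (p.1, ⟨A.ans E p.1 p.2⟩),
      if A.act p.1 = 1 then p.2 + 1 else p.2) := by rw [Rnd.step, if_neg hact]
  rw [hst]
  refine ⟨h9.1, h9.2.1, fun i => ?_, ?_, fun hq => ?_⟩
  · rw [h9.2.2.M _ (by omega), h8.2.M _ (by omega), h7.2.M _ (by omega), h6.2.1]
  · rw [h9.2.2.d, h8.2.d, h7.2.d, h6.2.2.d, h5.2.2.2.2.1, h4.2.2.2.d, h3.2.2.d, h2.2.2.d,
      h1.2.2.d, h.d]
  · rw [h9.2.2.q, h8.2.q, h7.2.q, h6.2.2.q, h5.2.2.2.2.2 (hq _), h4.2.2.2.q, h3.2.2.q, h2.2.2.q,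
      h1.2.2.q, h.q hq]

theorem ok_round {r : ℕ} {e : Option τ → ℕ} (he : ∀ k, 20 + e k < r) (M : Mach (Option τ)) :
    (roundC e M).ok r := by
  have h1 := he none
  have h2 := ok_sim he (by omega) M
  simp [roundC, popTo, popC, readQ, readQB, putC, ansC, clearQ, pushW, pushWB, pushR, Stm.ok,
    At.ok, h2]
  omega

end Crest.Agent.ORAM
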