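import Crest.Agent.ORAM.Imp
import Crest.Agent.PT.Core

/-! Bit stacks in RAM memory, and the simulation of stack machines. -/

set_option autoImplicit false

namespace Crest.Agent.ORAM

open Crest.Agent.PT Crest.WordRAM

/-- Total-correctness triple. -/
def Tr (E : Env) (s : Stm) (σ : St) (Q : St → Prop) (t : ℕ) : Prop :=
  ∃ σ', Exec E s σ σ' t ∧ Q σ'

namespace Tr
variable {E : Env} {σ : St} {Q Q' : St → Prop}

theorem mono {s : Stm} {t t' : ℕ} (h : Tr E s σ Q t) (ht : t ≤ t') : Tr E s σ Q t' := by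
  obtain ⟨σ', h1, h2⟩ := h
  exact ⟨σ', h1.mono ht, h2⟩

theorem imp {s : Stm} {t : ℕ} (h : Tr E s σ Q t) (hQ : ∀ σ', Q σ' → Q' σ') : Tr E s σ Q' t := by
  obtain ⟨σ', h1, h2⟩ := h
  exact ⟨σ', h1, hQ _ h2⟩

theorem skip (h : Q σ) : Tr E .skip σ Q 0 := ⟨σ, .skip σ, h⟩

theorem atom {i : At} (h : Q (i.ex E σ)) : Tr E (.at i) σ Q 1 := ⟨_, .at i σ, h⟩

theorem seq {s t : Stm} {a b : ℕ} (h : Tr E s σ (fun σ' => Tr E t σ' Q b) a) :
    Tr E (.seq s t) σ Q (a + b) := by
  obtain ⟨σ', h1, σ'', h2, h3⟩ := h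
  exact ⟨σ'', h1.seq h2, h3⟩

theorem bind {s t : Stm} {a b : ℕ} (h : Tr E s σ Q' a) (h' : ∀ σ', Q' σ' → Tr E t σ' Q b) :
    Tr E (.seq s t) σ Q (a + b) := seq (h.imp h')

theorem seqAt {i : At} {t : Stm} {b : ℕ} (h : Tr E t (i.ex E σ) Q b) :
    Tr E (.seq (.at i) t) σ Q (1 + b) := seq (atom h)

theorem ifT {a b : ℕ} {s t : Stm} {c : ℕ} (he : σ.R a = σ.R b) (h : Tr E s σ Q c) :
    Tr E (.ifeq a b s t) σ Q (c + 2) := by
  obtain ⟨σ', h1, h2⟩ := h
  exact ⟨σ', .ifT he h1, h2⟩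

theorem ifF {a b : ℕ} {s t : Stm} {c : ℕ} (he : σ.R a ≠ σ.R b) (h : Tr E t σ Q c) :
    Tr E (.ifeq a b s t) σ Q (c + 2) := by
  obtain ⟨σ', h1, h2⟩ := h
  exact ⟨σ', .ifF he h1, h2⟩

theorem wT {a b : ℕ} {s : Stm} (he : σ.R a = σ.R b) (h : Q σ) : Tr E (.wne a b s) σ Q 1 :=
  ⟨σ, .wT he, h⟩

theorem wF {a b : ℕ} {s : Stm} {c c' : ℕ} (he : σ.R a ≠ σ.R b) (h : Tr E s σ Q' c)
    (h' : ∀ σ', Q' σ' → Tr E (.wne a b s) σ' Q c') : Tr E (.wne a b s) σ Q (c + 2 + c') := by
  obtain ⟨σ', h1, h2⟩ := h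
  obtain ⟨σ'', h3, h4⟩ := h' σ' h2
  exact ⟨σ'', .wF he h1 h3, h4⟩

end Tr

/-- Memory layout: `κ` interleaved stacks from address `b`, scratch area from address `H`. -/
structure Cx (K : Type) : Type where
  κ : ℕ
  b : ℕ
  H : ℕ
  e : K → ℕ
  e_lt : ∀ k, e k < κ
  e_inj : Function.Injective e

/-- A stack stored in memory. -/
def Stk (M : ℕ → ℕ) (b κ j : ℕ) : List Bool → Prop
  | [] => True
  | x :: l => M (b + κ * l.length + j) = x.toNat ∧ Stk M b κ j l

theorem Stk.congr {M M' : ℕ → ℕ} {b κ j : ℕ} {l : List Bool} (h : Stk M b κ j l)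
    (hM : ∀ i < l.length, M' (b + κ * i + j) = M (b + κ * i + j)) : Stk M' b κ j l := by
  induction l with
  | nil => trivial
  | cons x l ih =>
    exact ⟨(hM _ (by simp)).trans h.1, ih h.2 fun i hi => hM i (by simp; omega)⟩

theorem addr_inj {κ i i' j j' : ℕ} (hj : j < κ) (hj' : j' < κ) (h : κ * i + j = κ * i' + j') :
    i = i' ∧ j = j' := by
  have h1 : (κ * i + j) % κ = (κ * i' + j') % κ := by rw [h]
  rw [Nat.mul_add_mod, Nat.mul_add_mod, Nat.mod_eq_of_lt hj, Nat.mod_eq_of_lt hj'] at h1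
  subst h1
  exact ⟨Nat.eq_of_mul_eq_mul_left (by omega) (by omega : κ * i = κ * i'), rfl⟩

variable {K : Type} (C : Cx K)

/-- The state represents the stacks `S`. -/
structure Rep (σ : St) (S : K → List Bool) : Prop where
  r2 : σ.R 2 = 0
  r3 : σ.R 3 = 1
  r4 : σ.R 4 = 2
  r5 : σ.R 5 = C.κ
  r6 : σ.R 6 = C.b + C.κ - 1
  r7 : σ.R 7 = C.H
  sp : ∀ k, σ.R (20 + C.e k) = C.b + C.κ * (S k).length + C.e k
  stk : ∀ k, Stk σ.M C.b C.κ (C.e k) (S k)

/-- Frame: everything outside the stacks and the registers `ms` is unchanged. -/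
structure Fr (ms : List ℕ) (σ σ' : St) : Prop where
  R : ∀ r < 20, r ∉ ms → σ'.R r = σ.R r
  d : σ'.d = σ.d
  q : σ'.q = σ.q
  M : ∀ a, a < C.b ∨ C.H ≤ a → σ'.M a = σ.M a

/-- Room for stacks of length `L`. -/
def Room (L : ℕ) : Prop := C.b + C.κ * (L + 2) ≤ C.H

variable {C}

theorem Room.mono {L L' : ℕ} (h : Room C L) (hL : L' ≤ L) : Room C L' :=
  le_trans (Nat.add_le_add_left (Nat.mul_le_mul_left _ (by omega)) _) h

theorem Room.lt {L i j : ℕ} (h : Room C L) (hi : i ≤ L + 1) (hj : j < C.κ) :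
    C.b + C.κ * i + j < C.H := by
  have := Nat.mul_le_mul_left C.κ hi
  unfold Room at h
  rw [show L + 2 = (L + 1) + 1 from rfl, Nat.mul_succ] at h
  omega

theorem Fr.refl (ms : List ℕ) (σ : St) : Fr C ms σ σ := ⟨fun _ _ _ => rfl, rfl, rfl, fun _ _ => rfl⟩

theorem Fr.trans {ms ms' ms'' : List ℕ} {σ σ' σ'' : St} (h : Fr C ms σ σ') (h' : Fr C ms' σ' σ'')
    (h1 : ms ⊆ ms'' := by simp) (h2 : ms' ⊆ ms'' := by simp) : Fr C ms'' σ σ'' :=
  ⟨fun r hr hm => (h'.R r hr fun h => hm (h2 h)).trans (h.R r hr fun h => hm (h1 h)),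
    h'.d.trans h.d, h'.q.trans h.q, fun a ha => (h'.M a ha).trans (h.M a ha)⟩

theorem Fr.weak {ms ms' : List ℕ} {σ σ' : St} (h : Fr C ms σ σ') (h1 : ms ⊆ ms' := by simp) :
    Fr C ms' σ σ' := h.trans (Fr.refl [] σ') h1 (by simp)

theorem Fr.set (σ : St) (r v : ℕ) : Fr C [r] σ (σ.set r v) :=
  ⟨fun j _ hj => by simp at hj; simp [hj], rfl, rfl, fun _ _ => rfl⟩

theorem Rep.set {σ : St} {S : K → List Bool} (h : Rep C σ S) (r v : ℕ)
    (hr : r < 2 ∨ (8 ≤ r ∧ r < 20) := by omega) : Rep C (σ.set r v) S := by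
  refine ⟨?_, ?_, ?_, ?_, ?_, ?_, fun k => ?_, h.stk⟩ <;> rw [St.set_R, if_neg (by omega)]
  exacts [h.r2, h.r3, h.r4, h.r5, h.r6, h.r7, h.sp k]

/-- Writing into the scratch area keeps the stacks. -/
theorem Rep.mem {σ σ' : St} {S : K → List Bool} (h : Rep C σ S) {L : ℕ} (hL : Room C L)
    (hS : ∀ k, (S k).length ≤ L) (hR : σ'.R = σ.R) (hM : ∀ a < C.H, σ'.M a = σ.M a) :
    Rep C σ' S :=
  ⟨hR ▸ h.r2, hR ▸ h.r3, hR ▸ h.r4, hR ▸ h.r5, hR ▸ h.r6, hR ▸ h.r7, fun k => hR ▸ h.sp k,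
    fun k => (h.stk k).congr fun i hi => hM _ (hL.lt (by have := hS k; omega) (C.e_lt k))⟩

/-- Push the bit held in register `r` on stack number `j`. -/
def pushR (j r : ℕ) : Stm := .seq (.at (.store r (20 + j))) (.at (.add (20 + j) (20 + j) 5))

/-- Code of a popped symbol. -/
def pcode : Option Bool → ℕ
  | none => 2
  | some b => b.toNat

/-- Pop stack number `j` into register `8`. -/
def popC (j : ℕ) : Stm :=
  .seq (.at (.sub 9 (20 + j) 6)) (.ifeq 9 2 (.at (.copy 8 4))
    (.seq (.at (.sub (20 + j) (20 + j) 5)) (.at (.load 8 (20 + j)))))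

variable {E : Env}

theorem tr_push (hw : 2 * C.H = 2 ^ E.w) {σ : St} {S : K → List Bool} (h : Rep C σ S) (k : K)
    {r : ℕ} {x : Bool} (hx : σ.R r = x.toNat) (hL : Room C (S k).length) :
    Tr E (pushR (C.e k) r) σ (fun σ' => Rep C σ' (upd S k (x :: S k)) ∧ Fr C [] σ σ') 2 := by
  refine Tr.seqAt (Tr.atom ?_)
  have hlt := hL.lt (i := (S k).length + 1) le_rfl (C.e_lt k)
  have hlt' := hL.lt (i := (S k).length) (by omega) (C.e_lt k)
  have hv : (σ.R (20 + C.e k) + σ.R 5) % 2 ^ E.w = C.b + C.κ * ((S k).length + 1) + C.e k := by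
    rw [h.sp, h.r5, Nat.mod_eq_of_lt (by rw [Nat.mul_succ] at hlt; omega), Nat.mul_succ]; omega
  simp only [At.ex, hv]
  refine ⟨⟨?_, ?_, ?_, ?_, ?_, ?_, fun j => ?_, fun j => ?_⟩, ⟨fun j hj _ => ?_, rfl, rfl, ?_⟩⟩
  iterate 6 (rw [St.set_R, if_neg (by omega)]; first | exact h.r2 | exact h.r3 | exact h.r4 | exact h.r5 | exact h.r6 | exact h.r7)
  · rw [St.set_R]
    by_cases hj : j = k
    · subst hj; simp
    · rw [if_neg (fun h' => hj (C.e_inj (by omega))), upd_ne _ _ hj]; exact h.sp j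
  · simp only [St.set_M, h.sp, hx]
    by_cases hj : j = k
    · subst hj
      rw [upd_same]
      refine ⟨by simp [writeMem], (h.stk j).congr fun i hi => ?_⟩
      rw [writeMem, if_neg]
      intro h'
      have := (addr_inj (C.e_lt j) (C.e_lt j) (by omega : C.κ * i + C.e j = C.κ * (S j).length + C.e j)).1
      omega
    · rw [upd_ne _ _ hj]
      refine (h.stk j).congr fun i _ => ?_
      rw [writeMem, if_neg]
      intro h'
      exact hj (C.e_inj (addr_inj (C.e_lt j) (C.e_lt k)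
        (by omega : C.κ * i + C.e j = C.κ * (S k).length + C.e k)).2)
  · rw [St.set_R, if_neg (by omega)]
  · intro a ha
    simp only [St.set_M, h.sp]
    rw [writeMem, if_neg (by omega)]

theorem tr_pop {σ : St} {S : K → List Bool} (h : Rep C σ S) (k : K) :
    Tr E (popC (C.e k)) σ (fun σ' => Rep C σ' (upd S k (S k).tail) ∧ σ'.R 8 = pcode (S k).head? ∧
      Fr C [8, 9] σ σ') 5 := by
  have hk := C.e_lt k
  refine (Tr.seqAt (b := 4) ?_).mono le_rfl
  have h9 := h.set 9 (σ.R (20 + C.e k) - σ.R 6)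
  have f9 : Fr C [9] σ _ := Fr.set σ 9 (σ.R (20 + C.e k) - σ.R 6)
  cases hS : S k with
  | nil =>
    refine (Tr.ifT ?_ (Tr.atom ?_)).mono (by omega)
    · simp only [At.ex, St.set_R, h.sp, h.r6, h.r2, hS]; simp; omega
    · simp only [At.ex]
      refine ⟨?_, by simp [h.r4, pcode], f9.trans (Fr.set _ 8 _)⟩
      rw [List.tail_nil, ← hS, upd_self]
      exact h9.set 8 _
  | cons x l =>
    have hsp := h.sp k
    rw [hS, List.length_cons, Nat.mul_succ] at hsp
    have hst := h.stk k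
    rw [hS] at hst
    refine Tr.ifF ?_ (Tr.seqAt (Tr.atom ?_))
    · simp only [At.ex, St.set_R, hsp, h.r6, h.r2]; simp; omega
    · have hv : σ.R (20 + C.e k) - σ.R 5 = C.b + C.κ * l.length + C.e k := by
        rw [hsp, h.r5]; omega
      have e1 : (20 + C.e k = 9) = False := by simp; omega
      simp only [At.ex, St.set_R, St.set_M, e1, if_false, if_true, hv, hst.1,
        show ((5 : ℕ) = 9) = False by simp]
      refine ⟨Rep.set ?_ 8 _, by simp [pcode], ⟨fun j hj hm => ?_, rfl, rfl, fun _ _ => rfl⟩⟩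
      · refine ⟨?_, ?_, ?_, ?_, ?_, ?_, fun j => ?_, fun j => ?_⟩
        iterate 6 (rw [St.set_R, if_neg (by omega)]; first | exact h9.r2 | exact h9.r3 | exact h9.r4 | exact h9.r5 | exact h9.r6 | exact h9.r7)
        · rw [St.set_R]
          by_cases hj : j = k
          · subst hj; simp
          · rw [if_neg (fun h' => hj (C.e_inj (by omega))), upd_ne _ _ hj]; exact h9.sp j
        · by_cases hj : j = k
          · subst hj; rw [upd_same]; exact hst.2
          · rw [upd_ne _ _ hj]; exact h.stk j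
      · simp only [List.mem_cons, List.not_mem_nil, or_false, not_or] at hm
        simp only [St.set_R, hm.1, hm.2, if_false]
        rw [if_neg (by omega)]

/-! ### Simulation of a stack machine -/

section Sim

variable {L : Type} (e : K → ℕ) (lab : Option L → ℕ)

/-- Code for one instruction; the new label goes to register `10`. -/
def instrC : PT.Instr K (Option L) → Stm
  | .push k b n => .seq (pushR (e k) (if b then 3 else 2)) (.at (.const 10 (lab n)))
  | .pop k n => .seq (popC (e k)) (.ifeq 8 2 (.at (.const 10 (lab (n (some false)))))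
      (.ifeq 8 3 (.at (.const 10 (lab (n (some true))))) (.at (.const 10 (lab (n none))))))

/-- Dispatch on the label in register `10`. -/
def dispC (prog : L → PT.Instr K (Option L)) : List L → Stm
  | [] => .skip
  | l :: ls => .seq (.at (.const 11 (lab (some l)))) (.ifeq 10 11 (instrC e lab (prog l)) (dispC prog ls))

variable {lab}

theorem tr_instr (hw : 2 * C.H = 2 ^ E.w) (hlab : ∀ l, lab l < 2 ^ E.w) {σ : St}
    {S : K → List Bool} (h : Rep C σ S) {N : ℕ} (hN : Room C N) (hS : ∀ k, (S k).length ≤ N)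
    (i : PT.Instr K (Option L)) :
    Tr E (instrC C.e lab i) σ (fun σ' => Rep C σ' (i.exec S).2 ∧ σ'.R 10 = lab (i.exec S).1 ∧
      Fr C [8, 9, 10] σ σ') 10 := by
  cases i with
  | push k b n =>
    refine (Tr.bind (tr_push hw h k (x := b) (by cases b <;> simp [h.r2, h.r3]) (hN.mono (hS k)))
      fun σ' h' => Tr.atom ?_).mono (by omega)
    exact ⟨h'.1.set 10 _, by simp [At.ex, Nat.mod_eq_of_lt (hlab _), PT.Instr.exec],
      h'.2.trans (Fr.set _ 10 _)⟩
  | pop k n =>
    refine Tr.bind (b := 5) (tr_pop h k) fun σ' h' => ?_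
    obtain ⟨h1, h2, h3⟩ := h'
    have fin : ∀ o, (S k).head? = o → Tr E (.at (.const 10 (lab (n o)))) σ' (fun σ' =>
        Rep C σ' ((PT.Instr.pop k n).exec S).2 ∧ σ'.R 10 = lab ((PT.Instr.pop k n).exec S).1 ∧
          Fr C [8, 9, 10] σ σ') 1 := fun o ho =>
      Tr.atom ⟨h1.set 10 _, by simp [At.ex, Nat.mod_eq_of_lt (hlab _), PT.Instr.exec, ho],
        h3.trans (Fr.set _ 10 _)⟩
    rcases ho : (S k).head? with _ | _ | _
    · rw [ho] at h2
      exact Tr.ifF (by simp [h2, h1.r2, pcode]) (Tr.ifF (by simp [h2, h1.r3, pcode]) (fin _ ho))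
    · rw [ho] at h2
      exact (Tr.ifT (by simp [h2, h1.r2, pcode]) (fin _ ho)).mono (by omega)
    · rw [ho] at h2
      exact Tr.ifF (by simp [h2, h1.r2, pcode]) (Tr.ifT (by simp [h2, h1.r3, pcode]) (fin _ ho))

theorem tr_disp (hw : 2 * C.H = 2 ^ E.w) (hlab : ∀ l, lab l < 2 ^ E.w)
    (hinj : Function.Injective lab) (prog : L → PT.Instr K (Option L)) {S : K → List Bool}
    {N : ℕ} (hN : Room C N) (hS : ∀ k, (S k).length ≤ N) (l : L) :
    ∀ (ls : List L) {σ : St}, l ∈ ls → Rep C σ S → σ.R 10 = lab (some l) →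
    Tr E (dispC C.e lab prog ls) σ (fun σ' => Rep C σ' ((prog l).exec S).2 ∧
      σ'.R 10 = lab ((prog l).exec S).1 ∧ Fr C [8, 9, 10, 11] σ σ') (3 * ls.length + 10)
  | [], _, hl, _, _ => by simp at hl
  | l' :: ls, σ, hl, h, h10 => by
    have f : Fr C [11] σ _ := Fr.set σ 11 (lab (some l') % 2 ^ E.w)
    by_cases hll : l = l'
    · subst hll
      refine (Tr.seqAt (Tr.ifT ?_ ((tr_instr hw hlab (h.set 11 _) hN hS (prog l)).imp
        fun σ' h' => ⟨h'.1, h'.2.1, f.trans h'.2.2⟩))).mono (by simp only [List.length_cons]; omega)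
      simp [At.ex, h10, Nat.mod_eq_of_lt (hlab _)]
    · refine (Tr.seqAt (Tr.ifF ?_ ((tr_disp hw hlab hinj prog hN hS l ls
        ((List.mem_cons.1 hl).resolve_left hll) (h.set 11 _) (by simp [At.ex, h10])).imp
        fun σ' h' => ⟨h'.1, h'.2.1, f.trans h'.2.2⟩))).mono (by simp only [List.length_cons]; omega)
      simp only [At.ex, St.set_R, Nat.mod_eq_of_lt (hlab _)]
      simp only [show ((10 : ℕ) = 11) = False by simp, if_false, if_true, h10]
      exact fun h' => hll (Option.some_injective _ (hinj h'))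

theorem length_exec_le (i : PT.Instr K (Option L)) (S : K → List Bool) (k : K) :
    ((i.exec S).2 k).length ≤ (S k).length + 1 := by
  cases i with
  | push j b n =>
    by_cases h : k = j
    · subst h; simp [PT.Instr.exec]
    · simp [PT.Instr.exec, upd_ne _ _ h]
  | pop j n =>
    by_cases h : k = j
    · subst h; simp [PT.Instr.exec]; omega
    · simp [PT.Instr.exec, upd_ne _ _ h]

end Sim

/-- Numbering of the labels of a machine. -/
noncomputable def labOf (M : Mach K) : Option M.L → ℕ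
  | none => 0
  | some l => (@Finite.equivFin M.L M.fin l).val + 1

theorem labOf_inj (M : Mach K) : Function.Injective (labOf M) := by
  rintro (_ | a) (_ | b) h <;> simp only [labOf] at h
  · rfl
  · omega
  · omega
  · rw [(@Finite.equivFin M.L M.fin).injective (a₁ := a) (a₂ := b) (Fin.ext (by omega))]

theorem labOf_le (M : Mach K) (l : Option M.L) : labOf M l ≤ Nat.card M.L := by
  cases l with
  | none => exact Nat.zero_le _
  | some l => exact (@Finite.equivFin M.L M.fin l).isLt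

/-- The list of all labels. -/
noncomputable def labels (M : Mach K) : List M.L :=
  (@Finset.univ M.L (@Fintype.ofFinite M.L M.fin)).toList

theorem mem_labels (M : Mach K) (l : M.L) : l ∈ labels M := by simp [labels]

/-- Code simulating the machine `M`. -/
noncomputable def simC (e : K → ℕ) (M : Mach K) : Stm :=
  .seq (.at (.const 10 (labOf M M.entry))) (.wne 10 2 (dispC e (labOf M) M.prog (labels M)))

theorem tr_sim (hw : 2 * C.H = 2 ^ E.w) (M : Mach K) (hlab : Nat.card M.L < 2 ^ E.w)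
    {S T : K → List Bool} {t : ℕ} (hr : M.Runs S T t) {N : ℕ} (hN : Room C (N + t))
    (hS : ∀ k, (S k).length ≤ N) {σ : St} (h : Rep C σ S) :
    Tr E (simC C.e M) σ (fun σ' => Rep C σ' T ∧ Fr C [8, 9, 10, 11] σ σ')
      (t * (3 * (labels M).length + 12) + 2) := by
  have hl : ∀ l, labOf M l < 2 ^ E.w := fun l => (labOf_le M l).trans_lt hlab
  have key : ∀ (t : ℕ) (l : Option M.L) (S : K → List Bool) (N : ℕ) (σ : St), Room C (N + t) →
      (∀ k, (S k).length ≤ N) → M.step^[t] (l, S) = (none, T) → Rep C σ S →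
      σ.R 10 = labOf M l →
      Tr E (.wne 10 2 (dispC C.e (labOf M) M.prog (labels M))) σ
        (fun σ' => Rep C σ' T ∧ Fr C [8, 9, 10, 11] σ σ')
        (t * (3 * (labels M).length + 12) + 1) := by
    intro t
    induction t with
    | zero =>
      intro l S N σ _ _ hr h h10
      simp only [Function.iterate_zero, id_eq, Prod.mk.injEq] at hr
      obtain ⟨rfl, rfl⟩ := hr
      exact (Tr.wT (by rw [h10, h.r2]; rfl) ⟨h, Fr.refl _ _⟩).mono (by omega)
    | succ t ih =>
      intro l S N σ hN hS hr h h10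
      cases l with
      | none =>
        rw [Mach.iter_none] at hr
        simp only [Prod.mk.injEq, true_and] at hr
        subst hr
        exact (Tr.wT (by rw [h10, h.r2]; rfl) ⟨h, Fr.refl _ _⟩).mono (by omega)
      | some l =>
        rw [Function.iterate_succ_apply] at hr
        refine (Tr.wF (by rw [h10, h.r2]; simp [labOf])
          (tr_disp hw hl (labOf_inj M) M.prog (hN.mono (by omega)) hS l _ (mem_labels M l) h h10)
          fun σ' h' => (ih _ _ (N + 1) σ' (hN.mono (by omega))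
            (fun k => (length_exec_le _ _ k).trans (by have := hS k; omega)) hr h'.1 h'.2.1).imp
            fun σ'' h'' => ⟨h''.1, h'.2.2.trans h''.2⟩).mono ?_
        rw [Nat.succ_mul t]; omega
  obtain ⟨t', ht', hr⟩ := hr
  refine (Tr.seqAt ((key t' _ S N _ (hN.mono (by omega)) hS hr (h.set 10 _)
    (by simp [Nat.mod_eq_of_lt (hl _)])).imp
    fun σ' h' => ⟨h'.1, (Fr.set σ 10 _).trans h'.2⟩)).mono ?_
  have := Nat.mul_le_mul_right (3 * (labels M).length + 12) ht'
  omega

/-! ### Register bounds -/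

theorem ok_push {r j x : ℕ} (hj : 20 + j < r) (hx : x < r) : (pushR j x).ok r := by
  simp [pushR, Stm.ok, At.ok]; omega

theorem ok_pop {r j : ℕ} (hj : 20 + j < r) : (popC j).ok r := by
  simp [popC, Stm.ok, At.ok]; omega

theorem ok_sim {r : ℕ} {e : K → ℕ} (he : ∀ k, 20 + e k < r) (h20 : 20 < r) (M : Mach K) :
    (simC e M).ok r := by
  refine ⟨by simp [Stm.ok, At.ok]; omega, by omega, by omega, ?_⟩
  induction labels M with
  | nil => trivial
  | cons l ls ih =>
    refine ⟨by simp [Stm.ok, At.ok]; omega, by omega, by omega, ?_, ih⟩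
    cases M.prog l with
    | push k b n =>
      exact ⟨ok_push (he k) (by split_ifs <;> omega), by simp [Stm.ok, At.ok]; omega⟩
    | pop k n => exact ⟨ok_pop (he k), by simp [Stm.ok, At.ok]; omega⟩

end Crest.Agent.ORAM
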